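import Mathlib

/-!
[783] P159, row C5: the number of shells and the total gain.
-/

namespace Vale.Agent.P159.TM.H783

/-- number of shells between the radii `1` and `X`, ratio `2λ`, `L = log λ` -/
noncomputable def nsh (L X : ℝ) : ℕ := ⌊Real.log X / (L + Real.log 2)⌋₊

theorem nsh_le {L X : ℝ} (hL : 0 < L) (hX : 1 ≤ X) :
    (2 * Real.exp L) ^ nsh L X ≤ X := by
  have h2 : 0 < L + Real.log 2 := by
    have := Real.log_pos (by norm_num : (1 : ℝ) < 2)
    linarith
  have hX0 : 0 < X := by linarith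
  have h1 : (nsh L X : ℝ) ≤ Real.log X / (L + Real.log 2) :=
    Nat.floor_le (div_nonneg (Real.log_nonneg hX) h2.le)
  rw [le_div_iff₀ h2] at h1
  have h3 : (2 * Real.exp L) ^ nsh L X = Real.exp ((nsh L X : ℝ) * (L + Real.log 2)) := by
    rw [Real.exp_nat_mul, Real.exp_add, Real.exp_log (by norm_num)]
    ring
  rw [h3]
  calc Real.exp ((nsh L X : ℝ) * (L + Real.log 2)) ≤ Real.exp (Real.log X) := Real.exp_le_exp.2 h1
    _ = X := Real.exp_log hX0

theorem lt_nsh {L X : ℝ} (hL : 0 < L) :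
    Real.log X < (L + Real.log 2) * (nsh L X + 1) := by
  have h2 : 0 < L + Real.log 2 := by
    have := Real.log_pos (by norm_num : (1 : ℝ) < 2)
    linarith
  have h1 := Nat.lt_floor_add_one (Real.log X / (L + Real.log 2))
  rw [div_lt_iff₀ h2] at h1
  unfold nsh
  linarith

/-- the total gain of the shells -/
theorem gain {P d L θ X : ℝ} (hP : 0 < P) (hd : 0 < d) (hd4 : d ≤ 1 / 4)
    (hL : Real.log 2 / d ≤ L) (hθ0 : 0 ≤ θ)
    (hθ : θ ≤ Real.exp (-(P * (1 - 3 * d) * L))) (hX : 1 ≤ X) :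
    θ ^ nsh L X ≤ (2 * Real.exp L / X) ^ (P * (1 - 4 * d)) := by
  have hl2 : 0 < Real.log 2 := Real.log_pos (by norm_num)
  have hL0 : 0 < L := lt_of_lt_of_le (by positivity) hL
  have hX0 : 0 < X := by linarith
  have h1 : θ ^ nsh L X ≤ Real.exp (-(P * (1 - 3 * d) * L)) ^ nsh L X :=
    pow_le_pow_left₀ hθ0 hθ _
  rw [← Real.exp_nat_mul] at h1
  refine h1.trans ?_
  have h2 : 0 < 2 * Real.exp L / X := by positivity
  rw [Real.rpow_def_of_pos h2]
  refine Real.exp_le_exp.2 ?_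
  have h3 : Real.log (2 * Real.exp L / X) = Real.log 2 + L - Real.log X := by
    rw [Real.log_div (by positivity) hX0.ne', Real.log_mul (by norm_num) (Real.exp_pos L).ne',
      Real.log_exp]
  rw [h3]
  have h4 := lt_nsh (X := X) hL0
  set I : ℝ := (nsh L X : ℝ) with hI
  have hI0 : 0 ≤ I := Nat.cast_nonneg _
  have h5 : -((L + Real.log 2) * I) ≤ Real.log 2 + L - Real.log X := by nlinarith
  have h6 : (1 - 4 * d) * (L + Real.log 2) ≤ (1 - 3 * d) * L := by
    have : Real.log 2 ≤ L * d := by rwa [div_le_iff₀ hd] at hL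
    nlinarith
  have h7 : 0 ≤ 1 - 4 * d := by linarith
  have h8 : 0 ≤ P * (1 - 4 * d) := by positivity
  calc I * -(P * (1 - 3 * d) * L) = -(P * I * ((1 - 3 * d) * L)) := by ring
    _ ≤ -(P * I * ((1 - 4 * d) * (L + Real.log 2))) :=
        neg_le_neg (mul_le_mul_of_nonneg_left h6 (by positivity))
    _ = -((L + Real.log 2) * I) * (P * (1 - 4 * d)) := by ring
    _ ≤ _ := mul_le_mul_of_nonneg_right h5 h8

end Vale.Agent.P159.TM.H783
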