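import Vale.Agent.P159.TM.H859.LogC
import Vale.Agent.P159.TM.H783.Num

/-!
[783] P159, row C5: the shells `ψ_i = logCut x0 (r0 (2λ)^i) λ` on the coarse torus.
-/

open Vale.Agent.P159.TM.H859

set_option linter.unusedSectionVars false

namespace Vale.Agent.P159.TM.H783

variable {N : ℕ} [NeZero N]

/-- radii -/
noncomputable def rad (r0 lam : ℝ) (i : ℕ) : ℝ := r0 * (2 * lam) ^ i

/-- shells -/
noncomputable def shl (x0 : ZMod N × ZMod N) (r0 lam : ℝ) (I : ℕ) (i : Fin I) :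
    ZMod N × ZMod N → ℝ := logCut x0 (rad r0 lam i) lam

theorem rad_pos {r0 lam : ℝ} (h0 : 0 < r0) (hl : 1 < lam) (i : ℕ) : 0 < rad r0 lam i := by
  unfold rad
  positivity

theorem rad_ge {r0 lam : ℝ} (h0 : 0 < r0) (hl : 1 < lam) (i : ℕ) : r0 ≤ rad r0 lam i := by
  unfold rad
  have : 1 ≤ (2 * lam) ^ i := one_le_pow₀ (by linarith)
  nlinarith

theorem rad_mono {r0 lam : ℝ} (h0 : 0 < r0) (hl : 1 < lam) {i j : ℕ} (hij : i ≤ j) :
    rad r0 lam i ≤ rad r0 lam j := by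
  unfold rad
  exact mul_le_mul_of_nonneg_left (pow_le_pow_right₀ (by linarith) hij) h0.le

theorem lam_rad_lt {r0 lam : ℝ} (h0 : 0 < r0) (hl : 1 < lam) {i j : ℕ} (hij : i < j) :
    lam * rad r0 lam i ≤ rad r0 lam j := by
  have h1 := rad_mono h0 hl (Nat.succ_le_of_lt hij)
  have h2 : rad r0 lam (Nat.succ i) = 2 * (lam * rad r0 lam i) := by
    unfold rad
    rw [pow_succ]
    ring
  have h3 := rad_pos h0 hl i
  have h4 : 0 < lam * rad r0 lam i := by positivity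
  linarith

theorem shl_nonneg (x0 : ZMod N × ZMod N) (r0 lam : ℝ) (I : ℕ) (i : Fin I) (x : ZMod N × ZMod N) :
    0 ≤ shl x0 r0 lam I i x := logCut_nonneg _ _ _ _

theorem shl_le_one (x0 : ZMod N × ZMod N) (r0 lam : ℝ) (I : ℕ) (i : Fin I) (x : ZMod N × ZMod N) :
    shl x0 r0 lam I i x ≤ 1 := logCut_le_one _ _ _ _

theorem shl_one {x0 : ZMod N × ZMod N} {r0 lam : ℝ} (h0 : 0 < r0) (hl : 1 < lam) {I : ℕ}
    (i : Fin I) {x : ZMod N × ZMod N} (hx : tn (x - x0) ≤ r0) : shl x0 r0 lam I i x = 1 :=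
  logCut_eq_one (hx.trans (rad_ge h0 hl i))

theorem shl_nested {x0 : ZMod N × ZMod N} {r0 lam : ℝ} (h0 : 0 < r0) (hl : 1 < lam) {I : ℕ}
    {i j : Fin I} (hij : i < j) {x : ZMod N × ZMod N} (hx : shl x0 r0 lam I i x ≠ 0) :
    shl x0 r0 lam I j x = 1 := by
  apply logCut_eq_one
  by_contra hcon
  push Not at hcon
  exact hx (logCut_eq_zero (rad_pos h0 hl i) hl ((lam_rad_lt h0 hl hij).trans hcon.le))

theorem card_ball (x0 : ZMod N × ZMod N) {R : ℝ} (hR : 1 ≤ R) :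
    ((Finset.univ.filter fun x : ZMod N × ZMod N => tn (x - x0) < R).card : ℝ) ≤ 9 * R ^ 2 := by
  set k : ℤ := ⌊R⌋ with hk
  have hk1 : (1 : ℤ) ≤ k := Int.le_floor.2 (by simpa using hR)
  have h1 : (Finset.univ.filter fun x : ZMod N × ZMod N => tn (x - x0) < R).card
      ≤ (Finset.Icc (-k) k ×ˢ Finset.Icc (-k) k).card := by
    refine Finset.card_le_card_of_injOn (fun x => rep (x - x0)) ?_ ?_
    · intro x hx
      simp only [Finset.coe_filter, Finset.mem_univ, true_and, Set.mem_ofPred_eq] at hx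
      have a1 := abs_fst_le_nz (rep (x - x0))
      have a2 := abs_snd_le_nz (rep (x - x0))
      have hx' : nz (rep (x - x0)) < R := hx
      have b1 : |(rep (x - x0)).1| ≤ k := by
        rw [hk, Int.le_floor]
        have : ((|(rep (x - x0)).1| : ℤ) : ℝ) = |((rep (x - x0)).1 : ℝ)| := by push_cast; rfl
        rw [this]
        linarith
      have b2 : |(rep (x - x0)).2| ≤ k := by
        rw [hk, Int.le_floor]
        have : ((|(rep (x - x0)).2| : ℤ) : ℝ) = |((rep (x - x0)).2 : ℝ)| := by push_cast; rfl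
        rw [this]
        linarith
      simp only [Finset.coe_product, Finset.coe_Icc, Set.mem_prod, Set.mem_Icc]
      exact ⟨abs_le.1 b1, abs_le.1 b2⟩
    · intro x _ y _ hxy
      have := rep_injective hxy
      exact sub_left_injective this
  rw [Finset.card_product, Int.card_Icc] at h1
  have h2 : ((k + 1 - -k).toNat : ℝ) = 2 * (k : ℝ) + 1 := by
    have h3 : (((k + 1 - -k).toNat : ℤ)) = k + 1 - -k := Int.toNat_of_nonneg (by linarith)
    have h4 : (((k + 1 - -k).toNat : ℤ) : ℝ) = ((k + 1 - -k : ℤ) : ℝ) := by rw [h3]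
    push_cast at h4
    rw [h4]
    ring
  have h5 : (k : ℝ) ≤ R := Int.floor_le R
  have h6 : (0 : ℝ) ≤ k := by exact_mod_cast (by linarith : (0 : ℤ) ≤ k)
  calc ((Finset.univ.filter fun x : ZMod N × ZMod N => tn (x - x0) < R).card : ℝ)
      ≤ (((k + 1 - -k).toNat * (k + 1 - -k).toNat : ℕ) : ℝ) := by exact_mod_cast h1
    _ = (2 * (k : ℝ) + 1) ^ 2 := by push_cast; rw [h2]; ring
    _ ≤ (3 * R) ^ 2 := by
        apply pow_le_pow_left₀ (by linarith)
        linarith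
    _ = 9 * R ^ 2 := by ring

theorem shl_sq {x0 : ZMod N × ZMod N} {r0 lam : ℝ} (h0 : 1 ≤ r0) (hl : 1 < lam) {I : ℕ}
    (i : Fin I) : ∑ x, shl x0 r0 lam I i x ^ 2 ≤ 9 * (lam * rad r0 lam i) ^ 2 := by
  have hr := rad_pos (by linarith : 0 < r0) hl i
  have hge := rad_ge (by linarith : 0 < r0) hl i
  have h1 : ∀ x, shl x0 r0 lam I i x ^ 2
      ≤ if tn (x - x0) < lam * rad r0 lam i then (1 : ℝ) else 0 := by
    intro x
    split_ifs with h
    · have a := shl_nonneg x0 r0 lam I i x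
      have b := shl_le_one x0 r0 lam I i x
      nlinarith
    · push Not at h
      have : shl x0 r0 lam I i x = 0 := logCut_eq_zero hr hl h
      rw [this]
      norm_num
  calc ∑ x, shl x0 r0 lam I i x ^ 2
      ≤ ∑ x : ZMod N × ZMod N, if tn (x - x0) < lam * rad r0 lam i then (1 : ℝ) else 0 :=
        Finset.sum_le_sum fun x _ => h1 x
    _ = ((Finset.univ.filter fun x : ZMod N × ZMod N =>
          tn (x - x0) < lam * rad r0 lam i).card : ℝ) := by
        rw [Finset.sum_ite, Finset.sum_const_zero, add_zero, Finset.sum_const, nsmul_eq_mul,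
          mul_one]
    _ ≤ _ := card_ball x0 (by nlinarith)

theorem geo_sum {lam : ℝ} (hl : 1 < lam) (I : ℕ) :
    ∑ i : Fin I, lam * (2 * lam) ^ (i : ℕ) ≤ (2 * lam) ^ I := by
  induction I with
  | zero => simp
  | succ n ih =>
      rw [Fin.sum_univ_castSucc]
      simp only [Fin.val_castSucc, Fin.val_last]
      have : (0 : ℝ) < (2 * lam) ^ n := by positivity
      rw [pow_succ]
      nlinarith

theorem geo_inv {lam : ℝ} (hl : 1 < lam) (I : ℕ) :
    ∑ i : Fin I, ((2 * lam) ^ (i : ℕ))⁻¹ ≤ 2 - 2 * ((2 * lam) ^ I)⁻¹ := by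
  induction I with
  | zero => simp
  | succ n ih =>
      rw [Fin.sum_univ_castSucc]
      simp only [Fin.val_castSucc, Fin.val_last]
      have h1 : (0 : ℝ) < (2 * lam) ^ n := by positivity
      have h2 : ((2 * lam) ^ (n + 1))⁻¹ ≤ ((2 * lam) ^ n)⁻¹ * (1 / 2) := by
        rw [pow_succ, mul_inv]
        refine mul_le_mul_of_nonneg_left ?_ (inv_pos.2 h1).le
        rw [one_div]
        exact inv_anti₀ (by norm_num) (by linarith)
      linarith

theorem shl_sum_sq {x0 : ZMod N × ZMod N} {r0 lam : ℝ} (h0 : 1 ≤ r0) (hl : 1 < lam) (I : ℕ) :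
    ∑ x, (∑ i, shl x0 r0 lam I i x) ^ 2 ≤ 9 * (r0 * (2 * lam) ^ I) ^ 2 := by
  have hr0 : 0 < r0 := by linarith
  have hw : ∀ i : Fin I, (0 : ℝ) < lam * (2 * lam) ^ (i : ℕ) := fun i => by positivity
  have h1 : ∀ x, (∑ i, shl x0 r0 lam I i x) ^ 2
      ≤ (∑ i : Fin I, lam * (2 * lam) ^ (i : ℕ))
        * ∑ i : Fin I, shl x0 r0 lam I i x ^ 2 / (lam * (2 * lam) ^ (i : ℕ)) := by
    intro x
    refine Finset.sum_sq_le_sum_mul_sum_of_sq_le_mul _ (fun i _ => (hw i).le)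
      (fun i _ => div_nonneg (sq_nonneg _) (hw i).le) fun i _ => ?_
    rw [mul_div_cancel₀ _ (hw i).ne']
  have h2 : ∑ x, ∑ i : Fin I, shl x0 r0 lam I i x ^ 2 / (lam * (2 * lam) ^ (i : ℕ))
      ≤ 9 * r0 ^ 2 * (2 * lam) ^ I := by
    rw [Finset.sum_comm]
    calc ∑ i : Fin I, ∑ x, shl x0 r0 lam I i x ^ 2 / (lam * (2 * lam) ^ (i : ℕ))
        ≤ ∑ i : Fin I, 9 * r0 ^ 2 * (lam * (2 * lam) ^ (i : ℕ)) := by
          refine Finset.sum_le_sum fun i _ => ?_
          rw [← Finset.sum_div, div_le_iff₀ (hw i)]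
          refine (shl_sq h0 hl i).trans (le_of_eq ?_)
          unfold rad
          ring
      _ = 9 * r0 ^ 2 * ∑ i : Fin I, lam * (2 * lam) ^ (i : ℕ) := by rw [Finset.mul_sum]
      _ ≤ _ := mul_le_mul_of_nonneg_left (geo_sum hl I) (by positivity)
  have h3 := geo_sum hl I
  have h4 : 0 ≤ ∑ i : Fin I, lam * (2 * lam) ^ (i : ℕ) := Finset.sum_nonneg fun i _ => (hw i).le
  calc ∑ x, (∑ i, shl x0 r0 lam I i x) ^ 2
      ≤ ∑ x, (∑ i : Fin I, lam * (2 * lam) ^ (i : ℕ))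
        * ∑ i : Fin I, shl x0 r0 lam I i x ^ 2 / (lam * (2 * lam) ^ (i : ℕ)) :=
        Finset.sum_le_sum fun x _ => h1 x
    _ = (∑ i : Fin I, lam * (2 * lam) ^ (i : ℕ))
        * ∑ x, ∑ i : Fin I, shl x0 r0 lam I i x ^ 2 / (lam * (2 * lam) ^ (i : ℕ)) := by
        rw [Finset.mul_sum]
    _ ≤ (2 * lam) ^ I * (9 * r0 ^ 2 * (2 * lam) ^ I) :=
        mul_le_mul h3 h2 (Finset.sum_nonneg fun x _ => Finset.sum_nonneg fun i _ =>
          div_nonneg (sq_nonneg _) (hw i).le) (by positivity)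
    _ = _ := by ring

theorem shl_tot_sq {x0 : ZMod N × ZMod N} {r0 lam : ℝ} (h0 : 1 ≤ r0) (hl : 1 < lam) (I : ℕ) :
    ∑ i, ∑ x, shl x0 r0 lam I i x ^ 2 ≤ 9 * (r0 * (2 * lam) ^ I) ^ 2 := by
  rw [Finset.sum_comm]
  refine le_trans (Finset.sum_le_sum fun x _ => ?_) (shl_sum_sq (x0 := x0) h0 hl I)
  rw [sq (∑ i, shl x0 r0 lam I i x), Finset.sum_mul]
  refine Finset.sum_le_sum fun i _ => ?_
  rw [sq]
  exact mul_le_mul_of_nonneg_left (Finset.single_le_sum (f := fun i => shl x0 r0 lam I i x)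
    (fun j _ => shl_nonneg x0 r0 lam I j x) (Finset.mem_univ i)) (shl_nonneg x0 r0 lam I i x)

/-- the Gaussian cross terms -/
noncomputable def qf {ι X : Type*} [Fintype ι] [Fintype X] (s2 : ℝ) (ψ : ι → X → ℝ)
    (t : ι → ℝ) : ℝ :=
  1 / (2 * s2) * (∑ x, (∑ i, t i * ψ i x) ^ 2 - ∑ i, t i ^ 2 * ∑ x, ψ i x ^ 2)

theorem qf_bound {x0 : ZMod N × ZMod N} {r0 lam s2 T dd : ℝ} (h0 : 1 ≤ r0) (hl : 1 < lam) (I : ℕ)
    (hs : 0 < s2) (htop : (r0 * (2 * lam) ^ I) ^ 2 ≤ dd ^ 2 * s2)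
    {t : Fin I → ℝ} (ht : ∀ i, |t i| ≤ T) : |qf s2 (shl x0 r0 lam I) t| ≤ 5 * T ^ 2 * dd ^ 2 := by
  have ht2 : ∀ i, t i ^ 2 ≤ T ^ 2 := fun i => by
    rw [← sq_abs]
    exact pow_le_pow_left₀ (abs_nonneg _) (ht i) 2
  have h1 : ∑ x, (∑ i, t i * shl x0 r0 lam I i x) ^ 2 ≤ T ^ 2 * (9 * (dd ^ 2 * s2)) := by
    calc ∑ x, (∑ i, t i * shl x0 r0 lam I i x) ^ 2
        ≤ ∑ x, T ^ 2 * (∑ i, shl x0 r0 lam I i x) ^ 2 := by
          refine Finset.sum_le_sum fun x _ => ?_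
          rw [← mul_pow, ← sq_abs]
          refine pow_le_pow_left₀ (abs_nonneg _) ?_ 2
          refine (Finset.abs_sum_le_sum_abs _ _).trans ?_
          rw [Finset.mul_sum]
          refine Finset.sum_le_sum fun i _ => ?_
          rw [abs_mul, abs_of_nonneg (shl_nonneg x0 r0 lam I i x)]
          exact mul_le_mul_of_nonneg_right (ht i) (shl_nonneg x0 r0 lam I i x)
      _ = T ^ 2 * ∑ x, (∑ i, shl x0 r0 lam I i x) ^ 2 := by rw [Finset.mul_sum]
      _ ≤ T ^ 2 * (9 * (r0 * (2 * lam) ^ I) ^ 2) :=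
          mul_le_mul_of_nonneg_left (shl_sum_sq h0 hl I) (sq_nonneg _)
      _ ≤ _ := by
          refine mul_le_mul_of_nonneg_left ?_ (sq_nonneg _)
          linarith
  have h2 : ∑ i, t i ^ 2 * ∑ x, shl x0 r0 lam I i x ^ 2 ≤ T ^ 2 * (9 * (dd ^ 2 * s2)) := by
    calc ∑ i, t i ^ 2 * ∑ x, shl x0 r0 lam I i x ^ 2
        ≤ ∑ i, T ^ 2 * ∑ x, shl x0 r0 lam I i x ^ 2 :=
          Finset.sum_le_sum fun i _ => mul_le_mul_of_nonneg_right (ht2 i)
            (Finset.sum_nonneg fun x _ => sq_nonneg _)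
      _ = T ^ 2 * ∑ i, ∑ x, shl x0 r0 lam I i x ^ 2 := by rw [Finset.mul_sum]
      _ ≤ T ^ 2 * (9 * (r0 * (2 * lam) ^ I) ^ 2) :=
          mul_le_mul_of_nonneg_left (shl_tot_sq h0 hl I) (sq_nonneg _)
      _ ≤ _ := by
          refine mul_le_mul_of_nonneg_left ?_ (sq_nonneg _)
          linarith
  have h3 : 0 ≤ ∑ x, (∑ i, t i * shl x0 r0 lam I i x) ^ 2 :=
    Finset.sum_nonneg fun x _ => sq_nonneg _
  have h4 : 0 ≤ ∑ i, t i ^ 2 * ∑ x, shl x0 r0 lam I i x ^ 2 :=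
    Finset.sum_nonneg fun i _ => mul_nonneg (sq_nonneg _) (Finset.sum_nonneg fun x _ => sq_nonneg _)
  have h5 : |∑ x, (∑ i, t i * shl x0 r0 lam I i x) ^ 2
      - ∑ i, t i ^ 2 * ∑ x, shl x0 r0 lam I i x ^ 2| ≤ T ^ 2 * (9 * (dd ^ 2 * s2)) := by
    rw [abs_le]
    constructor <;> linarith
  unfold qf
  rw [abs_mul, abs_of_pos (by positivity : 0 < 1 / (2 * s2))]
  calc 1 / (2 * s2) * _ ≤ 1 / (2 * s2) * (T ^ 2 * (9 * (dd ^ 2 * s2))) :=
        mul_le_mul_of_nonneg_left h5 (by positivity)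
    _ = 9 / 2 * T ^ 2 * dd ^ 2 := by field_simp
    _ ≤ _ := by
        have : 0 ≤ T ^ 2 * dd ^ 2 := by positivity
        nlinarith

/-- Lipschitz bound of the total shift -/
theorem shl_lip {x0 : ZMod N × ZMod N} {r0 lam T : ℝ} (h0 : 0 < r0) (hl : 1 < lam) (I : ℕ)
    (hT : 0 ≤ T) {t : Fin I → ℝ} (ht : ∀ i, |t i| ≤ T) (x y : ZMod N × ZMod N) :
    |∑ i, t i * shl x0 r0 lam I i x - ∑ i, t i * shl x0 r0 lam I i y|
      ≤ 2 * T / (r0 * Real.log lam) * tn (x - y) := by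
  have hll : 0 < Real.log lam := Real.log_pos hl
  have htn := tn_nonneg (x - y)
  rw [← Finset.sum_sub_distrib]
  refine (Finset.abs_sum_le_sum_abs _ _).trans ?_
  calc ∑ i, |t i * shl x0 r0 lam I i x - t i * shl x0 r0 lam I i y|
      ≤ ∑ i : Fin I, T * tn (x - y) / (r0 * Real.log lam) * ((2 * lam) ^ (i : ℕ))⁻¹ := by
        refine Finset.sum_le_sum fun i _ => ?_
        rw [← mul_sub, abs_mul]
        have h1 := logCut_lip x0 (rad_pos h0 hl i) hl x y
        calc |t i| * |shl x0 r0 lam I i x - shl x0 r0 lam I i y|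
            ≤ T * (tn (x - y) / (rad r0 lam i * Real.log lam)) :=
              mul_le_mul (ht i) h1 (abs_nonneg _) hT
          _ = _ := by
              unfold rad
              have : (2 * lam) ^ (i : ℕ) ≠ 0 := by positivity
              field_simp
    _ = T * tn (x - y) / (r0 * Real.log lam) * ∑ i : Fin I, ((2 * lam) ^ (i : ℕ))⁻¹ := by
        rw [Finset.mul_sum]
    _ ≤ T * tn (x - y) / (r0 * Real.log lam) * 2 := by
        refine mul_le_mul_of_nonneg_left ?_ (by positivity)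
        have := geo_inv hl I
        have h2 : 0 < ((2 * lam) ^ I)⁻¹ := by positivity
        linarith
    _ = _ := by ring

end Vale.Agent.P159.TM.H783
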