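import Vale.Agent.P159.TM.H783.Shell
import Vale.Agent.P159.TM.H783.Cut

/-!
[783] P159, row C5: the shells on the coarse torus `ZMod M × ZMod M` (units `l = K ξ`) at the scales
of 907 #15320, all numbers.
-/

open Vale.Agent.P159.TM.H859

set_option linter.unusedSectionVars false

namespace Vale.Agent.P159.TM.H783

/-- ratio of the outer scale and the inner radius -/
noncomputable def Xr (c r0 : ℝ) (M K : ℕ) : ℝ := c * M / (K * r0)

/-- variance of the coarse field -/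
noncomputable def s2c (M K : ℕ) : ℝ := ((M : ℝ) ^ 2 - 1) / (K : ℝ) ^ 2

theorem s2c_pos {M K : ℕ} (hM : 2 ≤ M) (hK : 1 ≤ K) : 0 < s2c M K := by
  unfold s2c
  have h1 : (2 : ℝ) ≤ M := by exact_mod_cast hM
  have h2 : (1 : ℝ) ≤ K := by exact_mod_cast hK
  have h3 : 0 < (M : ℝ) ^ 2 - 1 := by nlinarith
  positivity

theorem s2c_ge {M K : ℕ} (hM : 2 ≤ M) (hK : 1 ≤ K) :
    ((M : ℝ) / K) ^ 2 ≤ 4 / 3 * s2c M K := by
  unfold s2c
  have h1 : (2 : ℝ) ≤ M := by exact_mod_cast hM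
  have h2 : (1 : ℝ) ≤ K := by exact_mod_cast hK
  rw [div_pow, div_le_iff₀ (by positivity)]
  have : 4 / 3 * (((M : ℝ) ^ 2 - 1) / (K : ℝ) ^ 2) * (K : ℝ) ^ 2 = 4 / 3 * ((M : ℝ) ^ 2 - 1) := by
    field_simp
  rw [this]
  nlinarith

theorem lamI_le {L c r0 : ℝ} {M K : ℕ} (hL : 0 < L) (hr0 : 0 < r0) (hK : 1 ≤ K)
    (hX : 1 ≤ Xr c r0 M K) :
    r0 * (2 * Real.exp L) ^ nsh L (Xr c r0 M K) ≤ c * (M / K) := by
  have h1 := nsh_le hL hX
  have h2 : (1 : ℝ) ≤ K := by exact_mod_cast hK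
  calc r0 * (2 * Real.exp L) ^ nsh L (Xr c r0 M K) ≤ r0 * Xr c r0 M K :=
        mul_le_mul_of_nonneg_left h1 hr0.le
    _ = c * (M / K) := by
        unfold Xr
        field_simp

theorem top_sq {L c r0 : ℝ} {M K : ℕ} (hL : 0 < L) (hr0 : 0 < r0) (hM : 2 ≤ M)
    (hK : 1 ≤ K) (hX : 1 ≤ Xr c r0 M K) :
    (r0 * (2 * Real.exp L) ^ nsh L (Xr c r0 M K)) ^ 2 ≤ (2 * c) ^ 2 * s2c M K := by
  have h1 := lamI_le hL hr0 hK hX
  have h0 : 0 ≤ r0 * (2 * Real.exp L) ^ nsh L (Xr c r0 M K) := by positivity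
  have h2 := s2c_ge hM hK
  calc (r0 * (2 * Real.exp L) ^ nsh L (Xr c r0 M K)) ^ 2 ≤ (c * (M / K)) ^ 2 :=
        pow_le_pow_left₀ h0 h1 2
    _ = c ^ 2 * ((M : ℝ) / K) ^ 2 := by ring
    _ ≤ c ^ 2 * (4 / 3 * s2c M K) := mul_le_mul_of_nonneg_left h2 (sq_nonneg _)
    _ ≤ _ := by
        have := s2c_pos hM hK
        have h3 : 0 ≤ c ^ 2 * s2c M K := by positivity
        nlinarith

/-- the outer radius of every shell -/
theorem outer {L c r0 : ℝ} {M K : ℕ} (hL : 0 < L) (hr0 : 0 < r0) (hK : 1 ≤ K)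
    (hX : 1 ≤ Xr c r0 M K) (i : Fin (nsh L (Xr c r0 M K))) :
    Real.exp L * rad r0 (Real.exp L) i ≤ c * (M / K) / 2 := by
  have hl : 1 < Real.exp L := Real.one_lt_exp_iff.2 hL
  have hi : (i : ℕ) < nsh L (Xr c r0 M K) := i.2
  have h1 : rad r0 (Real.exp L) (i + 1) ≤ rad r0 (Real.exp L) (nsh L (Xr c r0 M K)) :=
    rad_mono hr0 hl hi
  have h2 : rad r0 (Real.exp L) ((i : ℕ) + 1) = 2 * (Real.exp L * rad r0 (Real.exp L) i) := by
    unfold rad
    rw [pow_succ]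
    ring
  have h3 := lamI_le hL hr0 hK hX
  unfold rad at h1 h2 ⊢
  linarith

section
variable {M K : ℕ} [NeZero M] {L c r0 : ℝ}

theorem c5_energy (x0 : ZMod M × ZMod M) (hL : 1 ≤ L) (hr0 : 10 ≤ r0) (hK : 1 ≤ K) (hc : c ≤ 1 / 2)
    (hM : 4 ≤ M) (hX : 1 ≤ Xr c r0 M K) (i : Fin (nsh L (Xr c r0 M K))) :
    dirE (shl x0 r0 (Real.exp L) _ i) ≤ (1 + 68 / r0) * (2 * Real.pi / L) := by
  have hL0 : 0 < L := by linarith
  have hl : 1 < Real.exp L := Real.one_lt_exp_iff.2 hL0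
  have hr : 0 < r0 := by linarith
  have h1 := outer hL0 hr hK hX i
  have hK1 : (1 : ℝ) ≤ K := by exact_mod_cast hK
  have hM4 : (4 : ℝ) ≤ M := by exact_mod_cast hM
  have hrg := rad_ge hr hl (i : ℕ)
  have hc0 : 0 ≤ c := by
    by_contra hcon
    push Not at hcon
    have : Xr c r0 M K < 0 := by
      unfold Xr
      apply div_neg_of_neg_of_pos
      · nlinarith
      · positivity
    linarith
  have h2 : c * ((M : ℝ) / K) ≤ 1 / 2 * M := by
    have h3 : (M : ℝ) / K ≤ M := div_le_self (by linarith) hK1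
    have h4 : 0 ≤ (M : ℝ) / K := by positivity
    calc c * ((M : ℝ) / K) ≤ 1 / 2 * ((M : ℝ) / K) := mul_le_mul_of_nonneg_right hc h4
      _ ≤ 1 / 2 * M := by linarith
  have he2 : 2 ≤ Real.exp L := by
    have := Real.add_one_le_exp L
    linarith
  have h5 := logCut_energy x0 (r := rad r0 (Real.exp L) i) (L := Real.exp L) (by linarith) he2
    (N := M) (by linarith)
  rw [Real.log_exp] at h5
  unfold shl
  refine h5.trans ?_
  refine mul_le_mul_of_nonneg_right ?_ (by positivity)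
  have : 68 / rad r0 (Real.exp L) i ≤ 68 / r0 := div_le_div_of_nonneg_left (by norm_num) hr hrg
  linarith

theorem c5_sq (x0 : ZMod M × ZMod M) (hL : 0 < L) (hr0 : 1 ≤ r0) (hK : 1 ≤ K)
    (hX : 1 ≤ Xr c r0 M K) (i : Fin (nsh L (Xr c r0 M K))) :
    ∑ x, shl x0 r0 (Real.exp L) _ i x ^ 2 ≤ 9 / 4 * c ^ 2 * ((M : ℝ) / K) ^ 2 := by
  have hl : 1 < Real.exp L := Real.one_lt_exp_iff.2 hL
  have hr : 0 < r0 := by linarith
  have h1 := outer hL hr hK hX i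
  have h0 := rad_pos hr hl (i : ℕ)
  have h2 := shl_sq (x0 := x0) hr0 hl i
  refine h2.trans ?_
  have h3 : 0 ≤ Real.exp L * rad r0 (Real.exp L) i := by positivity
  calc 9 * (Real.exp L * rad r0 (Real.exp L) i) ^ 2 ≤ 9 * (c * (M / K) / 2) ^ 2 :=
        mul_le_mul_of_nonneg_left (pow_le_pow_left₀ h3 h1 2) (by norm_num)
    _ = _ := by ring

/-- the Gaussian cross terms are bounded -/
theorem c5_qf (x0 : ZMod M × ZMod M) (hL : 0 < L) (hr0 : 1 ≤ r0) (hM : 2 ≤ M) (hK : 1 ≤ K)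
    (hX : 1 ≤ Xr c r0 M K) {T : ℝ} {t : Fin (nsh L (Xr c r0 M K)) → ℝ} (ht : ∀ i, |t i| ≤ T) :
    |qf (s2c M K) (shl x0 r0 (Real.exp L) _) t| ≤ 20 * T ^ 2 * c ^ 2 := by
  have hl : 1 < Real.exp L := Real.one_lt_exp_iff.2 hL
  have h1 := qf_bound (x0 := x0) (T := T) (dd := 2 * c) hr0 hl _ (s2c_pos hM hK)
    (top_sq hL (by linarith) hM hK hX) ht
  linarith

/-- the second derivative of the potential along a shell is at most `(1+d) 2πa/L` -/
theorem c5_slope {a d y S En fac : ℝ} (ha : 0 < a) (hd : 0 < d) (hd4 : d ≤ 1 / 4) (hL : 0 < L)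
    (hM : 2 ≤ M) (hK : 1 ≤ K) (hc : 24 * c ^ 2 ≤ d * (2 * Real.pi * a / L)) (hr0 : 272 / d ≤ r0)
    (hy : 0 ≤ y) (hyM : y * (M : ℝ) ^ 2 ≤ 1) (hS0 : 0 ≤ S)
    (hS : S ≤ 9 / 4 * c ^ 2 * ((M : ℝ) / K) ^ 2) (hEn : En ≤ (1 + 68 / r0) * (2 * Real.pi / L))
    (hfac0 : 0 ≤ fac) (hfac : fac ≤ 1 + d / 4) :
    S / s2c M K + y * (K : ℝ) ^ 2 * S + a * (fac * En) ≤ (1 + d) * (2 * Real.pi * a / L) := by
  have hpi := Real.pi_pos
  have hs := s2c_pos hM hK
  have hge := s2c_ge hM hK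
  have hK1 : (1 : ℝ) ≤ K := by exact_mod_cast hK
  have h1 : S / s2c M K ≤ 3 * c ^ 2 := by
    rw [div_le_iff₀ hs]
    calc S ≤ 9 / 4 * c ^ 2 * ((M : ℝ) / K) ^ 2 := hS
      _ ≤ 9 / 4 * c ^ 2 * (4 / 3 * s2c M K) := mul_le_mul_of_nonneg_left hge (by positivity)
      _ = _ := by ring
  have h2 : y * (K : ℝ) ^ 2 * S ≤ 3 * c ^ 2 := by
    calc y * (K : ℝ) ^ 2 * S ≤ y * (K : ℝ) ^ 2 * (9 / 4 * c ^ 2 * ((M : ℝ) / K) ^ 2) :=
          mul_le_mul_of_nonneg_left hS (by positivity)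
      _ = 9 / 4 * c ^ 2 * (y * (M : ℝ) ^ 2) := by field_simp
      _ ≤ 9 / 4 * c ^ 2 * 1 := mul_le_mul_of_nonneg_left hyM (by positivity)
      _ ≤ _ := by nlinarith [sq_nonneg c]
  have hr00 : 0 < r0 := lt_of_lt_of_le (by positivity) hr0
  have h3 : 68 / r0 ≤ d / 4 := by
    rw [div_le_iff₀ hr00]
    rw [div_le_iff₀ hd] at hr0
    linarith
  have h4 : fac * En ≤ (1 + 3 / 4 * d) * (2 * Real.pi / L) := by
    calc fac * En ≤ fac * ((1 + d / 4) * (2 * Real.pi / L)) := by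
          refine mul_le_mul_of_nonneg_left (hEn.trans ?_) hfac0
          exact mul_le_mul_of_nonneg_right (by linarith) (by positivity)
      _ ≤ (1 + d / 4) * ((1 + d / 4) * (2 * Real.pi / L)) :=
          mul_le_mul_of_nonneg_right hfac (by positivity)
      _ = ((1 + d / 4) * (1 + d / 4)) * (2 * Real.pi / L) := by ring
      _ ≤ _ := mul_le_mul_of_nonneg_right (by nlinarith) (by positivity)
  have h5 : a * (fac * En) ≤ (1 + 3 / 4 * d) * (2 * Real.pi * a / L) := by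
    calc a * (fac * En) ≤ a * ((1 + 3 / 4 * d) * (2 * Real.pi / L)) :=
          mul_le_mul_of_nonneg_left h4 ha.le
      _ = _ := by ring
  have h6 : 6 * c ^ 2 ≤ 1 / 4 * d * (2 * Real.pi * a / L) := by linarith
  calc _ ≤ 3 * c ^ 2 + 3 * c ^ 2 + (1 + 3 / 4 * d) * (2 * Real.pi * a / L) := by linarith
    _ ≤ _ := by linarith

/-- nearest neighbour Lipschitz constant of the total shift, in coarse units -/
theorem c5_lip (x0 : ZMod M × ZMod M) (hL : 0 < L) (hr0 : 0 < r0) {I : ℕ} {T : ℝ} (hT : 0 ≤ T)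
    {t : Fin I → ℝ} (ht : ∀ i, |t i| ≤ T) (x y : ZMod M × ZMod M) :
    |∑ i, t i * shl x0 r0 (Real.exp L) I i x - ∑ i, t i * shl x0 r0 (Real.exp L) I i y|
      ≤ 2 * T / (r0 * L) * tn (x - y) := by
  have hl : 1 < Real.exp L := Real.one_lt_exp_iff.2 hL
  have := shl_lip (x0 := x0) hr0 hl I hT ht x y
  rwa [Real.log_exp] at this

end

/-- the gain: `(2 λ K r0 / (c M))^{(π/a)(1-4d)}` for charge `±1`, its fourth power for the others -/
theorem c5_gain {a d L c r0 v B T η : ℝ} {M K : ℕ} (ha : 0 < a) (hd : 0 < d) (hd4 : d ≤ 1 / 4)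
    (hL : Real.log 2 / d ≤ L) (hX : 1 ≤ Xr c r0 M K) (hv : 0 < v) (hT : 0 < T)
    (hτ : tauT v B T < 1) (hη : 0 ≤ η)
    (h1 : thT 1 v ((1 + d) * (2 * Real.pi * a / L)) B T η
          ≤ Real.exp (-((Real.pi / a) * (1 - 3 * d) * L)))
    (h4 : thT 4 v ((1 + d) * (2 * Real.pi * a / L)) B T η
          ≤ Real.exp (-(4 * (Real.pi / a) * (1 - 3 * d) * L))) :
    thT 1 v ((1 + d) * (2 * Real.pi * a / L)) B T η ^ nsh L (Xr c r0 M K)
        ≤ (2 * Real.exp L * (K * r0) / (c * M)) ^ ((Real.pi / a) * (1 - 4 * d)) ∧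
    thT 4 v ((1 + d) * (2 * Real.pi * a / L)) B T η ^ nsh L (Xr c r0 M K)
        ≤ (2 * Real.exp L * (K * r0) / (c * M)) ^ (4 * (Real.pi / a) * (1 - 4 * d)) := by
  have hpi := Real.pi_pos
  have hn : ∀ kk : ℝ, 0 ≤ thT kk v ((1 + d) * (2 * Real.pi * a / L)) B T η := by
    intro kk
    have := lam1_univ (kk := kk) (qb := (1 + d) * (2 * Real.pi * a / L)) hv hT hτ hη
    unfold thT
    rw [← this]
    exact MeasureTheory.measureReal_nonneg
  have e : 2 * Real.exp L / Xr c r0 M K = 2 * Real.exp L * (K * r0) / (c * M) := by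
    unfold Xr
    rw [div_div_eq_mul_div]
  constructor
  · have := gain (P := Real.pi / a) (by positivity) hd hd4 hL (hn 1) h1 hX
    rwa [e] at this
  · have := gain (P := 4 * (Real.pi / a)) (by positivity) hd hd4 hL (hn 4) h4 hX
    rwa [e] at this

end Vale.Agent.P159.TM.H783
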