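import Vale.Agent.P159.TM.H783.Cell2
import Vale.Agent.P159.TM.H215.Final

/-!
[783] P159, row C5, final form per cell: constants from `δ, L₀, Cb, cb` only; instance for the
clamped charged functional `Ft` of H215.
-/

open MeasureTheory Complex
open Vale.Agent.P159.TM.H859 (tn tn_nonneg dirE)
open Vale.Agent.P159.TM.H104 (rho CE3 CE3_nonneg shift_mem_sub final_H3 final_H4)
open Vale.Agent.P159.TM.H365 (AA AA_add' AA_smul' AA_sub' continuous_AA node2 cor)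
open Vale.Agent.P159.TM.H215 (ch Ft)
open Vale.Agent.P159.TM.SpecC (Tor LipT QU BOut wT ms)

set_option linter.unusedSectionVars false

namespace Vale.Agent.P159.TM.H783

/-- **C5, per cell, constants chosen** -/
theorem sh_cell {δ L₀ Cb cb : ℝ} (hδ : 0 < δ) (hL₀ : 0 < L₀) (hCb : 0 ≤ Cb) (hcb : 0 < cb) :
    ∃ s Cg r0 X₀ : ℝ, 2 < s ∧ 0 < Cg ∧ 10 ≤ r0 ∧ 0 < X₀ ∧ ∃ K₀ : ℕ, 18 ≤ K₀ ∧
      ∀ (K M ξ r N : ℕ) [NeZero N] [NeZero M] (b y a : ℝ), 0 ≤ b → K₀ ≤ K → X₀ * K ≤ M →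
        0 < ξ → N = K * M * ξ → 2 * r ≤ ξ → 0 ≤ y → y * ((K : ℝ) * M) ^ 2 ≤ 1 → 0 ≤ a →
        a ≤ Real.pi / 2 - δ → QU (wT b N) ξ y a → BOut (wT b N) ξ (L₀ / ξ) Cb cb →
        ∀ (x0 : Tor M) (F : (Tor M → ℝ) → ℂ) (B0 B1 pb : ℝ) (m : ℕ), 1 ≤ m →
          Measurable F → (∀ G, ‖F G‖ ≤ B0) → 0 ≤ B1 →
          (∀ G, LipT (L₀ / (4 * ξ)) (AA (N := N) (K * ξ) r G) → ‖F G‖ ≤ B1) →
          (∀ G Ψ : Tor M → ℝ, ∀ t : ℝ, (∀ u, tn (u - x0) ≤ r0 → Ψ u = 1) →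
            F (G + t • Ψ) = ch (m : ℤ) (-t) * F G) →
          ((∫ G in {G : Tor M → ℝ | LipT (L₀ / (8 * ξ)) (AA (N := N) (K * ξ) r G)}ᶜ,
              rho (wT b N) (ms ξ) (AA (K * ξ) r) (s2c M K) G)
            ≤ pb * ∫ G : Tor M → ℝ, rho (wT b N) (ms ξ) (AA (N := N) (K * ξ) r) (s2c M K) G) →
          ‖∫ G : Tor M → ℝ, F G * (rho (wT b N) (ms ξ) (AA (K * ξ) r) (s2c M K) G : ℂ)‖ ≤
            (B0 * pb + (B1 * (Real.exp (Cg * ((K : ℝ) * M) ^ 6 * Real.exp (-(cb * K))) - 1) +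
              Cg * B1 * gg s K M m)) *
            ∫ G : Tor M → ℝ, rho (wT b N) (ms ξ) (AA (N := N) (K * ξ) r) (s2c M K) G := by
  have hpi := Real.pi_pos
  set δ' := min δ (Real.pi / 4) with hδ'
  have hδ'0 : 0 < δ' := lt_min hδ (by positivity)
  have hδ'2 : δ' < Real.pi / 2 := (min_le_right _ _).trans_lt (by linarith)
  have hδ'1 : δ' ≤ δ := min_le_left _ _
  obtain ⟨d, hd, hd4, hs⟩ := exists_d hδ'0 hδ'2
  set a' := Real.pi / 2 - δ' with ha'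
  have ha'0 : 0 < a' := by linarith
  obtain ⟨Lp, hLp, hpar⟩ := params ha'0 hd hd4
  set L := max (max Lp (Real.log 2 / d)) 1 with hL
  have hL1 : 1 ≤ L := le_max_right _ _
  have hLd : Real.log 2 / d ≤ L := (le_max_right _ _).trans (le_max_left _ _)
  have hLLp : Lp ≤ L := (le_max_left _ _).trans (le_max_left _ _)
  have hL0 : 0 < L := by linarith
  obtain ⟨v, B, T, η0, hv, hB, hT0, hT, hτ, hη0, hp⟩ := hpar L hLLp
  set qb := (1 + d) * (2 * Real.pi * a' / L) with hqb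
  have hqb0 : 0 < qb := by positivity
  have hsB : 0 < sB qb B := by unfold sB; positivity
  set T' := T + sB qb B with hT'
  have hT'0 : 0 < T' := by rw [hT']; linarith
  set c := min (1 / 2) (Real.sqrt (d * (2 * Real.pi * a' / L) / 24)) with hc
  have hz : 0 < d * (2 * Real.pi * a' / L) / 24 := by positivity
  have hc0 : 0 < c := lt_min (by norm_num) (Real.sqrt_pos.2 hz)
  have hc2 : c ≤ 1 / 2 := min_le_left _ _
  have hc24 : 24 * c ^ 2 ≤ d * (2 * Real.pi * a' / L) := by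
    have h1 : c ^ 2 ≤ Real.sqrt (d * (2 * Real.pi * a' / L) / 24) ^ 2 :=
      pow_le_pow_left₀ hc0.le (min_le_right _ _) 2
    rw [Real.sq_sqrt hz.le] at h1
    linarith
  set r0 := 272 / d with hr0
  have hr010 : 10 ≤ r0 := by
    rw [hr0, le_div_iff₀ hd]
    linarith
  have hr00 : 0 < r0 := by linarith
  set s := Real.pi / a' * (1 - 4 * d) with hsdef
  set A := Real.exp (40 * T' ^ 2 * c ^ 2) with hA
  have hA0 : 0 < A := Real.exp_pos _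
  set C1 := (1 + A) * (T' ^ 2 * (Cb * Real.exp (2 * cb))) with hC1
  set C2 := A * (2 * Real.exp L * r0 / c) ^ (4 * s) with hC2
  have hC1' : 0 ≤ C1 := by positivity
  have hC2' : 0 < C2 := by positivity
  set Q := 4 / d + 2 + 48 * T' / (L₀ * r0 * L) +
    |CE3 (Real.exp L) Cb cb * T' ^ 3 / (r0 * η0)| with hQdef
  refine ⟨s, C1 + C2, r0, r0 / c, hs, by positivity, hr010, by positivity, ⌈Q⌉₊ + 18, by omega,
    ?_⟩
  intro K M ξ r N _ _ b y a hb hK hX hξ hN hr hy hyV ha haa hQ hBO x0 F B0 B1 pb m hm hFm hF0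
    hB1 hF1 hF2 hpb
  have hQK : Q ≤ K := by
    have h1 : Q ≤ (⌈Q⌉₊ : ℝ) := Nat.le_ceil _
    have h2 : ((⌈Q⌉₊ + 18 : ℕ) : ℝ) ≤ K := by exact_mod_cast hK
    push_cast at h2
    linarith
  have h4d : 0 < 4 / d := by positivity
  have hk2 : 0 < 48 * T' / (L₀ * r0 * L) := by positivity
  have hk3 := abs_nonneg (CE3 (Real.exp L) Cb cb * T' ^ 3 / (r0 * η0))
  have hk3' := le_abs_self (CE3 (Real.exp L) Cb cb * T' ^ 3 / (r0 * η0))
  have key := cell_core (b := b) (N := N) ha'0 hd hd4 hL1 hLd hv hB hT0 hT hτ hη0 hp hc0 hc2 hc24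
    le_rfl hL₀ hCb hcb hT' hb (by linarith) (by linarith) (by linarith) hX hξ hN hr hy hyV ha
    (by linarith) hQ hBO x0 hm hFm hF0 hB1 hF1 hF2 hpb
  refine key.trans (mul_le_mul_of_nonneg_right ?_ (integral_nonneg fun G => (Real.exp_pos _).le))
  refine add_le_add le_rfl (add_le_add (mul_le_mul_of_nonneg_left (sub_le_sub_right
    (Real.exp_le_exp.2 ?_) 1) hB1) ?_)
  · have e1 : (1 + A) * (T' ^ 2 * (Cb * Real.exp (2 * cb)) * ((K : ℝ) * M) ^ 6 *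
        Real.exp (-(cb * K))) = C1 * ((K : ℝ) * M) ^ 6 * Real.exp (-(cb * K)) := by
      rw [hC1]
      ring
    rw [e1]
    have h5 : 0 ≤ C2 * ((K : ℝ) * M) ^ 6 * Real.exp (-(cb * K)) := by positivity
    linarith
  · have hg := gg_nonneg s K M m
    have h6 : 0 ≤ C1 * B1 * gg s K M m := by positivity
    linarith

/-! ### the clamped functional of H215 -/

section

variable {N K M ξ : ℕ} [NeZero N] [NeZero M] [NeZero (K * M)]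

/-- coarse point of the cell of `u` -/
noncomputable def cpt (N : ℕ) {K M : ℕ} (ξ : ℕ) [NeZero N] [NeZero (K * M)] (u : Tor (K * M)) :
    Tor M :=
  (H365.qq (K * ξ) (node2 N ξ u).1, H365.qq (K * ξ) (node2 N ξ u).2)

theorem cpt_near (hN : N = K * M * ξ) (hK : 0 < K) (hξ : 0 < ξ) {R : ℝ} (hR : 2 * (R + 2) ≤ K)
    (u : Tor (K * M)) {x : Tor N} (hx : tn (x - node2 N ξ u) < 2 * (R + 2) * ξ) {v : Tor M}
    (hv : v ∈ cor (K * ξ) x) : tn (v - cpt N ξ u) ≤ 10 := by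
  have hNM : N = M * (K * ξ) := by rw [hN]; ring
  have hl : 0 < K * ξ := Nat.mul_pos hK hξ
  have hξ' : (0 : ℝ) < ξ := by exact_mod_cast hξ
  have hK' : (0 : ℝ) < K := by exact_mod_cast hK
  have hl' : (0 : ℝ) < ((K * ξ : ℕ) : ℝ) := by exact_mod_cast hl
  have hmem : cpt N ξ u ∈ cor (K * ξ) (node2 N ξ u) := by
    rw [H365.mem_cor]
    exact ⟨Or.inl rfl, Or.inl rfl⟩
  have h1 := H365.tn_cor hNM hl hmem
  have h2 := (H365.tn_cor_le hNM hl hv (cpt N ξ u)).1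
  have h3 : tn (x - node2 N (K * ξ) (cpt N ξ u)) ≤
      tn (x - node2 N ξ u) + tn (node2 N ξ u - node2 N (K * ξ) (cpt N ξ u)) := by
    have := H859.tn_add_le (x - node2 N ξ u) (node2 N ξ u - node2 N (K * ξ) (cpt N ξ u))
    rwa [sub_add_sub_cancel] at this
  have hs2 : Real.sqrt 2 ≤ 3 / 2 := by
    rw [Real.sqrt_le_left (by norm_num)]
    norm_num
  have h4 : 2 * (R + 2) * (ξ : ℝ) ≤ ((K * ξ : ℕ) : ℝ) := by
    push_cast
    exact mul_le_mul_of_nonneg_right hR hξ'.le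
  have h5 : Real.sqrt 2 * ((K * ξ : ℕ) : ℝ) ≤ 3 / 2 * ((K * ξ : ℕ) : ℝ) :=
    mul_le_mul_of_nonneg_right hs2 hl'.le
  have h6 : ((K * ξ : ℕ) : ℝ) * tn (v - cpt N ξ u) ≤ ((K * ξ : ℕ) : ℝ) * 10 := by
    linarith
  exact le_of_mul_le_mul_left h6 hl'

/-- exact charge of `Ft` on the coarse side -/
theorem Ft_coarse {b : ℝ} (hb : 0 ≤ b) (hN : N = K * M * ξ) (hK : 0 < K) (hξ : 0 < ξ)
    {L₀ R r0 : ℝ} (hL₀ : 0 < L₀) (hR0 : 0 ≤ R) (hR : 2 * (R + 2) ≤ K) (hr0 : 10 ≤ r0) (r : ℕ)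
    (k : ℤ) (u : Tor (K * M)) (G Ψ : Tor M → ℝ) (t : ℝ)
    (hΨ : ∀ v, tn (v - cpt N ξ u) ≤ r0 → Ψ v = 1) :
    Ft (wT b N) ξ L₀ R k u (AA (K * ξ) r (G + t • Ψ)) =
      ch k (-t) * Ft (wT b N) ξ L₀ R k u (AA (K * ξ) r G) := by
  have h := H215.Ft_charge (H870.wt_T (N := N) hb) (H870.shift_T (b := b) (N := N)) hξ hL₀
    (R := R) k u (AA (K * ξ) r G) (AA (K * ξ) r Ψ) (fun x hx =>
      H365.AA_eq_of_corners _ _ fun v hv => hΨ v ((cpt_near hN hK hξ hR u hx hv).trans hr0))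
    hR0 t
  have e : (AA (K * ξ) r (G + t • Ψ) : Tor N → ℝ) =
      fun x => AA (K * ξ) r G x + t * AA (K * ξ) r Ψ x := by
    rw [AA_add', AA_smul']
    rfl
  rw [e]
  exact h

theorem Ft_meas {b : ℝ} (hb : 0 ≤ b) (hξ : 0 < ξ) (L₀ R : ℝ) (r : ℕ) (k : ℤ) (u : Tor (K * M)) :
    Measurable fun G : Tor M → ℝ =>
      Ft (wT b N) ξ L₀ R k u (AA (N := N) (K * ξ) r G) := by
  have hW := H870.wt_T (N := N) hb
  obtain ⟨Wb, hwb⟩ := hW.bdd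
  have hξ' : (0 : ℝ) < ξ := by exact_mod_cast hξ
  have hm : ∀ x : Tor N, 0 < ms (ξ : ℝ) x := by
    intro x
    unfold ms
    positivity
  have hD := H215.continuous_Dg hm hW.nonneg hwb hW.pos
  exact (H845.Ft_cont hD k _ _ _ _ _ continuous_AA).measurable

end

/-- **C5 for the clamped functional** -/
theorem sh_Ft {δ L₀ Cb cb : ℝ} (hδ : 0 < δ) (hL₀ : 0 < L₀) (hCb : 0 ≤ Cb) (hcb : 0 < cb) :
    ∃ s Cg X₀ : ℝ, 2 < s ∧ 0 < Cg ∧ 0 < X₀ ∧ ∃ K₀ : ℕ, 18 ≤ K₀ ∧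
      ∀ (K M ξ r N : ℕ) [NeZero N] [NeZero M] [NeZero (K * M)] (b y a : ℝ), 0 ≤ b → K₀ ≤ K →
        X₀ * K ≤ M → 0 < ξ → N = K * M * ξ → 2 * r ≤ ξ → 0 ≤ y → y * ((K : ℝ) * M) ^ 2 ≤ 1 →
        0 ≤ a → a ≤ Real.pi / 2 - δ → QU (wT b N) ξ y a → BOut (wT b N) ξ (L₀ / ξ) Cb cb →
        ∀ (R B0 B1 pb : ℝ) (m : ℕ) (u : Tor (K * M)), 1 ≤ m → 0 ≤ R → 2 * (R + 2) ≤ K →
          (∀ f, ‖Ft (wT b N) ξ L₀ R m u f‖ ≤ B0) → 0 ≤ B1 →
          (∀ f, LipT (L₀ / (4 * ξ)) f → ‖Ft (wT b N) ξ L₀ R m u f‖ ≤ B1) →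
          ((∫ G in {G : Tor M → ℝ | LipT (L₀ / (8 * ξ)) (AA (N := N) (K * ξ) r G)}ᶜ,
              rho (wT b N) (ms ξ) (AA (K * ξ) r) (s2c M K) G)
            ≤ pb * ∫ G : Tor M → ℝ, rho (wT b N) (ms ξ) (AA (N := N) (K * ξ) r) (s2c M K) G) →
          ‖∫ G : Tor M → ℝ, Ft (wT b N) ξ L₀ R m u (AA (K * ξ) r G) *
              (rho (wT b N) (ms ξ) (AA (K * ξ) r) (s2c M K) G : ℂ)‖ ≤
            (B0 * pb + (B1 * (Real.exp (Cg * ((K : ℝ) * M) ^ 6 * Real.exp (-(cb * K))) - 1) +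
              Cg * B1 * gg s K M m)) *
            ∫ G : Tor M → ℝ, rho (wT b N) (ms ξ) (AA (N := N) (K * ξ) r) (s2c M K) G := by
  obtain ⟨s, Cg, r0, X₀, hs, hCg, hr0, hX₀, K₀, hK₀, h⟩ := sh_cell hδ hL₀ hCb hcb
  refine ⟨s, Cg, X₀, hs, hCg, hX₀, K₀, hK₀, ?_⟩
  intro K M ξ r N _ _ _ b y a hb hK hX hξ hN hr hy hyV ha haa hQ hBO R B0 B1 pb m u hm hR0 hR
    hF0 hB1 hF1 hpb
  have hKpos : 0 < K := by omega
  exact h K M ξ r N b y a hb hK hX hξ hN hr hy hyV ha haa hQ hBO (cpt N ξ u)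
    (fun G => Ft (wT b N) ξ L₀ R m u (AA (N := N) (K * ξ) r G)) B0 B1 pb m hm
    (Ft_meas hb hξ L₀ R r m u) (fun G => hF0 _) hB1 (fun G hG => hF1 _ hG)
    (fun G Ψ t hΨ => Ft_coarse hb hN hKpos hξ hL₀ hR0 hR hr0 r m u G Ψ t hΨ) hpb

end Vale.Agent.P159.TM.H783
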