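import Vale.Agent.P159.TM.H104.Final
import Vale.Agent.P159.TM.H365.Phi3
import Vale.Agent.P159.TM.H845.Meas

/-!
[783] P159, row C5, final form per cell: an exactly charged functional of the coarse field has a
small integral against the density `rho (wT b N) (ms ξ) (AA (K ξ) r) (s2c M K)`; all constants of
the shell construction are chosen here, from `δ, L₀, Cb, cb` only.
-/

open MeasureTheory Complex
open Vale.Agent.P159.TM.H859 (tn tn_nonneg dirE)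
open Vale.Agent.P159.TM.H104 (rho CE3 CE3_nonneg shift_mem_sub final_H3 final_H4)
open Vale.Agent.P159.TM.H365 (AA AA_add' AA_smul' AA_sub' continuous_AA)
open Vale.Agent.P159.TM.H215 (ch)
open Vale.Agent.P159.TM.SpecC (Tor LipT QU BOut wT ms)

set_option linter.unusedSectionVars false

namespace Vale.Agent.P159.TM.H783

/-- the gain of the charge `m` sector -/
noncomputable def gg (s : ℝ) (K M : ℕ) (m : ℕ) : ℝ :=
  if m = 1 then ((K : ℝ) / M) ^ s else ((K : ℝ) / M) ^ (4 * s)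

theorem gg_nonneg (s : ℝ) (K M m : ℕ) : 0 ≤ gg s K M m := by
  unfold gg
  split_ifs <;> positivity

theorem exp_bern {A x : ℝ} (hA : 1 ≤ A) :
    A * (Real.exp x - 1) ≤ Real.exp (A * x) - 1 := by
  have h := one_add_mul_self_le_rpow_one_add (s := Real.exp x - 1) (p := A)
    (by linarith [Real.exp_pos x]) hA
  rw [add_sub_cancel, ← Real.exp_mul] at h
  rw [mul_comm A x]
  linarith

/-- numbers of the final estimate -/
theorem fin_num {B1 x A θI d1 Cg g : ℝ} (hB1 : 0 ≤ B1) (hx : 0 ≤ x) (hA : 1 ≤ A)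
    (hθ1 : θI ≤ 1) (hd1 : (1 + A) * x ≤ d1) (hg : A * θI ≤ Cg * g) :
    B1 * (Real.exp x - 1) + B1 * (Real.exp x * A) * θI ≤
      B1 * (Real.exp d1 - 1) + Cg * B1 * g := by
  have hE : 0 ≤ Real.exp x - 1 := by linarith [Real.add_one_le_exp x]
  have h1 : Real.exp x * A * θI ≤ A * θI + A * (Real.exp x - 1) := by
    have h2 : A * (Real.exp x - 1) * θI ≤ A * (Real.exp x - 1) * 1 :=
      mul_le_mul_of_nonneg_left hθ1 (by positivity)
    nlinarith
  have h3 : (1 + A) * (Real.exp x - 1) ≤ Real.exp d1 - 1 := by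
    refine (exp_bern (by linarith)).trans ?_
    have := Real.exp_le_exp.2 hd1
    linarith
  have h4 : Real.exp x - 1 + Real.exp x * A * θI ≤ (Real.exp d1 - 1) + Cg * g := by
    linarith
  calc B1 * (Real.exp x - 1) + B1 * (Real.exp x * A) * θI
      = B1 * (Real.exp x - 1 + Real.exp x * A * θI) := by ring
    _ ≤ B1 * ((Real.exp d1 - 1) + Cg * g) := mul_le_mul_of_nonneg_left h4 hB1
    _ = _ := by ring

/-- choice of `d`: the exponent `s = (π/a')(1-4d)` is larger than `2` -/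
theorem exists_d {δ : ℝ} (hδ : 0 < δ) (hδ2 : δ < Real.pi / 2) :
    ∃ d : ℝ, 0 < d ∧ d ≤ 1 / 4 ∧ 2 < Real.pi / (Real.pi / 2 - δ) * (1 - 4 * d) := by
  have hpi := Real.pi_pos
  have ha : 0 < Real.pi / 2 - δ := by linarith
  refine ⟨δ / (4 * Real.pi), by positivity, ?_, ?_⟩
  · rw [div_le_div_iff₀ (by positivity) (by norm_num)]
    linarith
  · have e : Real.pi / (Real.pi / 2 - δ) * (1 - 4 * (δ / (4 * Real.pi)))
        = (Real.pi - δ) / (Real.pi / 2 - δ) := by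
      field_simp
    rw [e, lt_div_iff₀ ha]
    linarith

/-- exact charge along finitely many shells -/
theorem charge_sum {C ι : Type*} {F : (C → ℝ) → ℂ} {m : ℤ} {P : (C → ℝ) → Prop}
    (h : ∀ G Ψ : C → ℝ, ∀ t : ℝ, P Ψ → F (G + t • Ψ) = ch m (-t) * F G) (s : Finset ι)
    (Ψ : ι → C → ℝ) (hΨ : ∀ i, P (Ψ i)) (t : ι → ℝ) (G : C → ℝ) :
    F (G + ∑ i ∈ s, t i • Ψ i) = ch m (-∑ i ∈ s, t i) * F G := by
  classical
  induction s using Finset.induction_on with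
  | empty => simp [H215.ch_zero]
  | insert a s ha ih =>
    rw [Finset.sum_insert ha, Finset.sum_insert ha, add_comm (t a • Ψ a), ← add_assoc,
      h _ _ _ (hΨ a), ih, neg_add, H215.ch_add, mul_assoc]

theorem ch_neg_eq (m : ℤ) (t : ℝ) : ch m (-t) = cexp ((2 * Real.pi * (m : ℝ) * t : ℝ) * I) := by
  unfold ch
  congr 1
  push_cast
  ring

theorem nsh_le_KM {L c r0 : ℝ} {K M : ℕ} (hL : 0 < L) (hc : c ≤ 1) (hr0 : 1 ≤ r0) (hK : 1 ≤ K)
    (hX : 1 ≤ Xr c r0 M K) : (nsh L (Xr c r0 M K) : ℝ) ≤ (K : ℝ) * M := by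
  have h1 := nsh_le hL hX
  have hK1 : (1 : ℝ) ≤ K := by exact_mod_cast hK
  have hM0 : (0 : ℝ) ≤ M := by positivity
  have h2 : ((nsh L (Xr c r0 M K) : ℕ) : ℝ) ≤ (2 : ℝ) ^ nsh L (Xr c r0 M K) := by
    exact_mod_cast (Nat.lt_two_pow_self (n := nsh L (Xr c r0 M K))).le
  have h3 : (2 : ℝ) ^ nsh L (Xr c r0 M K) ≤ (2 * Real.exp L) ^ nsh L (Xr c r0 M K) := by
    refine pow_le_pow_left₀ (by norm_num) ?_ _
    have := Real.add_one_le_exp L
    linarith
  have h4 : Xr c r0 M K ≤ K * M := by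
    unfold Xr
    have hden : (0 : ℝ) < K * r0 := by positivity
    rw [div_le_iff₀ hden]
    have h5 : c * M ≤ 1 * M := mul_le_mul_of_nonneg_right hc hM0
    have h6 : (1 : ℝ) * M ≤ (K * M) * (K * r0) := by
      have h7 : (1 : ℝ) ≤ K * (K * r0) := by
        have : (1 : ℝ) ≤ K * r0 := by nlinarith
        nlinarith
      nlinarith
    linarith
  linarith

/-- the quadratic coefficient along one shell -/
theorem c5_hq {a' d L c r0 : ℝ} (ha' : 0 < a') (hd : 0 < d) (hd4 : d ≤ 1 / 4) (hL1 : 1 ≤ L)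
    (hc2 : c ≤ 1 / 2) (hc24 : 24 * c ^ 2 ≤ d * (2 * Real.pi * a' / L)) (hr0 : 272 / d ≤ r0)
    (hr010 : 10 ≤ r0) {K M ξ r : ℕ} [NeZero M] {y a : ℝ} (hK1 : 4 / d + 2 ≤ K) (hM4 : 4 ≤ M)
    (hKn : 1 ≤ K) (hX1 : 1 ≤ Xr c r0 M K) (hξ : 0 < ξ) (hr : 2 * r ≤ ξ) (hy : 0 ≤ y)
    (hyV : y * ((K : ℝ) * M) ^ 2 ≤ 1) (ha : 0 ≤ a) (haa : a ≤ a') (x0 : Tor M)
    (i : Fin (nsh L (Xr c r0 M K))) :
    (∑ u, shl x0 r0 (Real.exp L) _ i u ^ 2) / s2c M K +
      y * (K : ℝ) ^ 2 * (∑ u, shl x0 r0 (Real.exp L) _ i u ^ 2) +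
      a * (((K * ξ : ℕ) : ℝ) / (((K * ξ : ℕ) : ℝ) - 2 * r) *
        dirE (shl x0 r0 (Real.exp L) _ i)) ≤ (1 + d) * (2 * Real.pi * a' / L) := by
  have hL0 : 0 < L := by linarith
  have hξ' : (0 : ℝ) < ξ := by exact_mod_cast hξ
  have h4d : 16 ≤ 4 / d := by
    rw [le_div_iff₀ hd]
    linarith
  have hK18 : (18 : ℝ) ≤ K := by linarith
  have hr' : 2 * (r : ℝ) ≤ ξ := by exact_mod_cast hr
  have hKξ : ((K * ξ : ℕ) : ℝ) = K * ξ := by push_cast; ring
  have hden0 : 0 < (K : ℝ) * ξ - 2 * r := by nlinarith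
  have hfac : (K : ℝ) * ξ / ((K : ℝ) * ξ - 2 * r) ≤ 1 + d / 4 := by
    rw [div_le_iff₀ hden0]
    have h1 : 4 ≤ d * (K - 2) := by
      have : 4 / d ≤ K - 2 := by linarith
      rw [div_le_iff₀ hd] at this
      linarith
    have h2 : 2 * r * (1 + d / 4) ≤ ξ * (1 + d / 4) :=
      mul_le_mul_of_nonneg_right hr' (by positivity)
    have h3 : (ξ : ℝ) * 4 ≤ ξ * (d * (K - 2)) := mul_le_mul_of_nonneg_left h1 hξ'.le
    have h4 : 0 ≤ ξ * d := by positivity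
    nlinarith
  have hfac0 : 0 ≤ (K : ℝ) * ξ / ((K : ℝ) * ξ - 2 * r) := by positivity
  have hM0 : (0 : ℝ) ≤ (M : ℝ) ^ 2 := by positivity
  have hyM : y * (M : ℝ) ^ 2 ≤ 1 := by
    refine le_trans ?_ hyV
    have h5 : (M : ℝ) ^ 2 ≤ ((K : ℝ) * M) ^ 2 := by
      rw [mul_pow]
      have : (1 : ℝ) ≤ (K : ℝ) ^ 2 := by nlinarith
      nlinarith
    exact mul_le_mul_of_nonneg_left h5 hy
  have h1 := c5_slope (a := a') (d := d) (y := y) (L := L) (c := c) (r0 := r0) (M := M) (K := K)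
    (S := ∑ u, shl x0 r0 (Real.exp L) _ i u ^ 2) (En := dirE (shl x0 r0 (Real.exp L) _ i))
    (fac := (K : ℝ) * ξ / ((K : ℝ) * ξ - 2 * r)) ha' hd hd4 hL0 (by omega) hKn hc24 hr0
    hy hyM (Finset.sum_nonneg fun u _ => sq_nonneg _)
    (c5_sq x0 hL0 (by linarith) hKn hX1 i) (c5_energy x0 hL1 hr010 hKn hc2 hM4 hX1 i) hfac0 hfac
  rw [hKξ]
  refine le_trans ?_ h1
  have hE : 0 ≤ dirE (shl x0 r0 (Real.exp L) (nsh L (Xr c r0 M K)) i) := by
    unfold dirE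
    exact Finset.sum_nonneg fun x _ => by positivity
  have h6 : a * ((K : ℝ) * ξ / ((K : ℝ) * ξ - 2 * r) *
      dirE (shl x0 r0 (Real.exp L) (nsh L (Xr c r0 M K)) i)) ≤
      a' * ((K : ℝ) * ξ / ((K : ℝ) * ξ - 2 * r) *
      dirE (shl x0 r0 (Real.exp L) (nsh L (Xr c r0 M K)) i)) :=
    mul_le_mul_of_nonneg_right haa (by positivity)
  linarith

/-- the total gain in the letters `gg` -/
theorem theta_gg {a' d L c r0 v B T η : ℝ} {K M : ℕ} (ha' : 0 < a') (hd : 0 < d)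
    (hd4 : d ≤ 1 / 4) (hL1 : 1 ≤ L) (hLd : Real.log 2 / d ≤ L) (hv : 0 < v)
    (hT0 : 0 < T) (hτ : tauT v B T < 1) (hη : 0 ≤ η)
    (h1 : thT 1 v ((1 + d) * (2 * Real.pi * a' / L)) B T η
          ≤ Real.exp (-((Real.pi / a') * (1 - 3 * d) * L)))
    (h4 : thT 4 v ((1 + d) * (2 * Real.pi * a' / L)) B T η
          ≤ Real.exp (-(4 * (Real.pi / a') * (1 - 3 * d) * L)))
    (hc : 0 < c) (hc2 : c ≤ 1 / 2) (hr0 : 10 ≤ r0) (hM : 0 < M)
    (hX1 : 1 ≤ Xr c r0 M K) (m : ℕ) :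
    thT (if m = 1 then 1 else 4) v ((1 + d) * (2 * Real.pi * a' / L)) B T η ^ nsh L (Xr c r0 M K)
        ≤ 1 ∧
    thT (if m = 1 then 1 else 4) v ((1 + d) * (2 * Real.pi * a' / L)) B T η ^ nsh L (Xr c r0 M K)
      ≤ (2 * Real.exp L * r0 / c) ^ (4 * (Real.pi / a' * (1 - 4 * d))) *
        gg (Real.pi / a' * (1 - 4 * d)) K M m := by
  have hpi := Real.pi_pos
  have hL0 : 0 < L := by linarith
  have hM0 : (0 : ℝ) < M := by exact_mod_cast hM
  have hn : ∀ kk : ℝ, 0 ≤ thT kk v ((1 + d) * (2 * Real.pi * a' / L)) B T η := by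
    intro kk
    have := lam1_univ (kk := kk) (qb := (1 + d) * (2 * Real.pi * a' / L)) hv hT0 hτ hη
    unfold thT
    rw [← this]
    exact MeasureTheory.measureReal_nonneg
  have hs0 : 0 ≤ Real.pi / a' * (1 - 4 * d) := by
    have : 0 ≤ 1 - 4 * d := by linarith
    positivity
  have hbase : 1 ≤ 2 * Real.exp L * r0 / c := by
    rw [le_div_iff₀ hc]
    have := Real.add_one_le_exp L
    nlinarith
  have hg := c5_gain (K := K) (M := M) ha' hd hd4 hLd hX1 hv hT0 hτ hη h1 h4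
  have e : 2 * Real.exp L * (K * r0) / (c * M) = (2 * Real.exp L * r0 / c) * ((K : ℝ) / M) := by
    field_simp
  have hKM : (0 : ℝ) ≤ (K : ℝ) / M := by positivity
  constructor
  · refine pow_le_one₀ (hn _) ?_
    split_ifs
    · refine h1.trans (Real.exp_le_one_iff.2 ?_)
      have : 0 ≤ (Real.pi / a') * (1 - 3 * d) * L := by
        have : 0 ≤ 1 - 3 * d := by linarith
        positivity
      linarith
    · refine h4.trans (Real.exp_le_one_iff.2 ?_)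
      have : 0 ≤ 4 * (Real.pi / a') * (1 - 3 * d) * L := by
        have : 0 ≤ 1 - 3 * d := by linarith
        positivity
      linarith
  · unfold gg
    split_ifs with h
    · refine hg.1.trans ?_
      rw [e, Real.mul_rpow (by linarith) hKM]
      refine mul_le_mul_of_nonneg_right ?_ (by positivity)
      exact Real.rpow_le_rpow_of_exponent_le hbase (by linarith)
    · refine hg.2.trans ?_
      rw [e, Real.mul_rpow (by linarith) hKM]
      have e2 : 4 * (Real.pi / a') * (1 - 4 * d) = 4 * (Real.pi / a' * (1 - 4 * d)) := by ring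
      rw [e2]

/-- the error of the decoupling -/
theorem d1_le {L c r0 T' Cb cb : ℝ} {K M : ℕ} (hL : 0 < L) (hc : c ≤ 1) (hr0 : 1 ≤ r0)
    (hK : 1 ≤ K) (hX : 1 ≤ Xr c r0 M K) (hCb : 0 ≤ Cb) :
    (nsh L (Xr c r0 M K) : ℝ) * ((nsh L (Xr c r0 M K) : ℝ) * (T' ^ 2 *
      (((K * M : ℕ) : ℝ) ^ 4 * (Cb * Real.exp (-(cb * ((K : ℝ) - 2))))))) ≤
      T' ^ 2 * (Cb * Real.exp (2 * cb)) * ((K : ℝ) * M) ^ 6 * Real.exp (-(cb * K)) := by
  have h1 := nsh_le_KM (M := M) hL hc hr0 hK hX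
  have h2 : ((K * M : ℕ) : ℝ) = (K : ℝ) * M := by push_cast; ring
  have h3 : Real.exp (-(cb * ((K : ℝ) - 2))) = Real.exp (2 * cb) * Real.exp (-(cb * K)) := by
    rw [← Real.exp_add]
    congr 1
    ring
  rw [h2, h3]
  set J : ℝ := (nsh L (Xr c r0 M K) : ℝ) with hJ
  have hJ0 : 0 ≤ J := by positivity
  have h4 : J * J ≤ ((K : ℝ) * M) ^ 2 := by
    rw [sq]
    exact mul_le_mul h1 h1 hJ0 (by positivity)
  have h5 : 0 ≤ T' ^ 2 * (((K : ℝ) * M) ^ 4 * (Cb * (Real.exp (2 * cb) * Real.exp (-(cb * K))))) := by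
    positivity
  calc J * (J * (T' ^ 2 * (((K : ℝ) * M) ^ 4 * (Cb * (Real.exp (2 * cb) * Real.exp (-(cb * K)))))))
      = (J * J) * (T' ^ 2 * (((K : ℝ) * M) ^ 4 *
          (Cb * (Real.exp (2 * cb) * Real.exp (-(cb * K)))))) := by ring
    _ ≤ ((K : ℝ) * M) ^ 2 * (T' ^ 2 * (((K : ℝ) * M) ^ 4 *
          (Cb * (Real.exp (2 * cb) * Real.exp (-(cb * K)))))) :=
        mul_le_mul_of_nonneg_right h4 h5
    _ = _ := by ring

end Vale.Agent.P159.TM.H783
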