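import Vale.Agent.P159.TM.H783.Cell1

/-!
[783] P159, row C5, final form per cell.
-/

open MeasureTheory Complex
open Vale.Agent.P159.TM.H859 (tn tn_nonneg dirE)
open Vale.Agent.P159.TM.H104 (rho CE3 CE3_nonneg shift_mem_sub final_H3 final_H4)
open Vale.Agent.P159.TM.H365 (AA AA_add' AA_smul' AA_sub' continuous_AA)
open Vale.Agent.P159.TM.H215 (ch)
open Vale.Agent.P159.TM.SpecC (Tor LipT QU BOut wT ms)

set_option linter.unusedSectionVars false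

namespace Vale.Agent.P159.TM.H783

/-- the shell lemma with explicit constants, raw right-hand side -/
theorem cell_raw {qb L v B T T' c r0 L₀ Cb cb : ℝ} (hL1 : 1 ≤ L) (hv : 0 < v) (hB : 0 < B)
    (hT0 : 0 < T) (hT : B * v ≤ T) (hτ : tauT v B T < 1) (hqb0 : 0 < qb)
    (hr010 : 10 ≤ r0) (hCb : 0 ≤ Cb) (hcb : 0 < cb)
    (hT' : T' = T + sB qb B)
    {K M ξ r N : ℕ} [NeZero N] [NeZero M] {b y a : ℝ} (hb : 0 ≤ b)
    (hsl1 : L₀ / 8 + 6 * T / (r0 * L * K) ≤ L₀ / 4)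
    (hsl2 : L₀ / 4 + 6 * T' / (r0 * L * K) ≤ L₀)
    (hK1n : 1 ≤ K) (hM2 : 2 ≤ M)
    (hX1 : 1 ≤ Xr c r0 M K) (hξ : 0 < ξ) (hN : N = K * M * ξ) (h4r : 4 * r ≤ K * ξ)
    (hy : 0 ≤ y) (hyV : y * ((K : ℝ) * M) ^ 2 ≤ 1) (ha : 0 ≤ a)
    (hQ : QU (wT b N) ξ y a) (hBO : BOut (wT b N) ξ (L₀ / ξ) Cb cb)
    (x0 : Tor M)
    (hq : ∀ i : Fin (nsh L (Xr c r0 M K)), (∑ u, shl x0 r0 (Real.exp L) _ i u ^ 2) / s2c M K +
      y * (K : ℝ) ^ 2 * (∑ u, shl x0 r0 (Real.exp L) _ i u ^ 2) +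
      a * (((K * ξ : ℕ) : ℝ) / (((K * ξ : ℕ) : ℝ) - 2 * r) *
        dirE (shl x0 r0 (Real.exp L) _ i)) ≤ qb)
    {F : (Tor M → ℝ) → ℂ} {B0 B1 : ℝ} {m : ℤ} {kk : ℝ} (hkk0 : 0 ≤ kk) (hkm : kk ≤ (m : ℝ) ^ 2)
    (hFm : Measurable F) (hF0 : ∀ G, ‖F G‖ ≤ B0) (hB1 : 0 ≤ B1)
    (hF1 : ∀ G, LipT (L₀ / 4 / ξ) (AA (N := N) (K * ξ) r G) → ‖F G‖ ≤ B1)
    (hF2 : ∀ G Ψ : Tor M → ℝ, ∀ t : ℝ, (∀ u, tn (u - x0) ≤ r0 → Ψ u = 1) →
      F (G + t • Ψ) = ch m (-t) * F G) :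
    ‖∫ G : Tor M → ℝ, F G * (rho (wT b N) (ms ξ) (AA (K * ξ) r) (s2c M K) G : ℂ)‖ ≤
      B0 * (∫ G in {G : Tor M → ℝ | LipT (L₀ / 8 / ξ) (AA (N := N) (K * ξ) r G)}ᶜ,
        rho (wT b N) (ms ξ) (AA (K * ξ) r) (s2c M K) G)
      + (0 + B1 * (Real.exp ((nsh L (Xr c r0 M K) : ℝ) * ((nsh L (Xr c r0 M K) : ℝ) * (T' ^ 2 *
          (((K * M : ℕ) : ℝ) ^ 4 * (Cb * Real.exp (-(cb * ((K : ℝ) - 2)))))))) - 1)) *
        (∫ G : Tor M → ℝ, rho (wT b N) (ms ξ) (AA (N := N) (K * ξ) r) (s2c M K) G)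
      + B1 * Real.exp ((nsh L (Xr c r0 M K) : ℝ) * ((nsh L (Xr c r0 M K) : ℝ) * (T' ^ 2 *
          (((K * M : ℕ) : ℝ) ^ 4 * (Cb * Real.exp (-(cb * ((K : ℝ) - 2)))))))
            + 2 * (20 * T' ^ 2 * c ^ 2)) *
        thT kk v qb B T (CE3 (Real.exp L) Cb cb / (K * r0) * T' ^ 3) ^ nsh L (Xr c r0 M K) *
        (∫ G : Tor M → ℝ, rho (wT b N) (ms ξ) (AA (N := N) (K * ξ) r) (s2c M K) G) := by
  classical
  have hL0 : 0 < L := by linarith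
  have hξ' : (0 : ℝ) < ξ := by exact_mod_cast hξ
  have hr00 : 0 < r0 := by linarith
  have hKpos : 0 < K := hK1n
  have hsB : 0 < sB qb B := by unfold sB; positivity
  have hT'0 : 0 < T' := by rw [hT']; linarith
  have hNM : N = M * (K * ξ) := by rw [hN]; ring
  have hCE : 0 ≤ CE3 (Real.exp L) Cb cb := CE3_nonneg (Real.one_lt_exp_iff.2 hL0) hcb
  have hη1 : 0 ≤ CE3 (Real.exp L) Cb cb / (K * r0) * T' ^ 3 := by positivity
  have hs2 : 0 < s2c M K := s2c_pos hM2 hK1n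
  have hmpos : ∀ x : Tor N, 0 < ms (ξ : ℝ) x := by
    intro x
    unfold ms
    positivity
  have hW := H870.wt_T (N := N) hb
  have hG := H870.gin_T (N := N) hb hmpos
  have hAc : Continuous fun G : Tor M → ℝ => AA (N := N) (K * ξ) r G := continuous_AA
  have hρm : Measurable (rho (wT b N) (ms ξ) (fun G : Tor M → ℝ => AA (N := N) (K * ξ) r G)
      (s2c M K)) := H845.rho_meas hW hmpos hAc (s2c M K)
  have hρi : Integrable (rho (wT b N) (ms ξ) (fun G : Tor M → ℝ => AA (N := N) (K * ξ) r G)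
      (s2c M K)) := H845.rho_int hW hmpos hG hAc hs2
  have hρp : ∀ G, 0 < rho (wT b N) (ms ξ) (fun G : Tor M → ℝ => AA (N := N) (K * ξ) r G)
      (s2c M K) G := fun G => Real.exp_pos _
  have key := shell (E := Tor M → ℝ) (ι := Fin (nsh L (Xr c r0 M K))) volume hρm hρp hρi
    (G := {G : Tor M → ℝ | LipT (L₀ / 8 / ξ) (AA (N := N) (K * ξ) r G)})
    (G' := {G : Tor M → ℝ | LipT (L₀ / 4 / ξ) (AA (N := N) (K * ξ) r G)})
    (H845.lipT_meas hAc) (H845.lipT_meas hAc) hFm hF0 hB1 (fun G hG' => hF1 G hG')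
    (shl x0 r0 (Real.exp L) (nsh L (Xr c r0 M K)))
    (m := (m : ℝ)) (δ0 := 0) (δ1 := (nsh L (Xr c r0 M K) : ℝ) * ((nsh L (Xr c r0 M K) : ℝ) *
      (T' ^ 2 * (((K * M : ℕ) : ℝ) ^ 4 * (Cb * Real.exp (-(cb * ((K : ℝ) - 2))))))))
    (qs := 20 * T' ^ 2 * c ^ 2) le_rfl (by positivity) hkk0 hkm hv hqb0 hB hT0 hT hτ hη1
    (q := qf (s2c M K) (shl x0 r0 (Real.exp L) (nsh L (Xr c r0 M K)))) ?_ ?_ ?_ ?_ ?_ ?_
  · rw [Fintype.card_fin] at key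
    exact key
  · unfold qf
    fun_prop
  · intro t ht
    rw [← hT'] at ht
    exact c5_qf x0 hL0 (by linarith) hM2 hK1n hX1 ht
  · intro G hG' t ht
    exact shift_mem_sub hξ hKpos hNM h4r x0 hr00 hL0 hT0.le hsl1 ht hG'
  · intro G hG' t ht
    have h1 := charge_sum (F := F) (m := m) (P := fun Ψ => ∀ u, tn (u - x0) ≤ r0 → Ψ u = 1)
      (fun G Ψ t hP => hF2 G Ψ t hP) Finset.univ
      (shl x0 r0 (Real.exp L) (nsh L (Xr c r0 M K))) (fun i u hu =>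
        shl_one hr00 (Real.one_lt_exp_iff.2 hL0) i hu) t G
    rw [sh, h1, ch_neg_eq, sub_self, norm_zero]
  · intro G hG' t ht
    rw [← hT'] at ht
    exact final_H3 hb hξ hKpos hN h4r hBO hCb hcb.le (s2c M K) x0 hr010 hL0 hT'0.le hsl2 ht hG'
  · intro G hG' i
    rw [← hT']
    exact final_H4 hb hξ hKpos hN h4r hy ha hQ hyV hBO hCb hcb hs2 x0 hr010 hL1 hT'0.le hsl2 i
      (hq i) hG'

/-- the shell lemma with explicit constants -/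
theorem cell_core {a' d L v B T T' η0 c r0 L₀ Cb cb : ℝ} (ha' : 0 < a') (hd : 0 < d)
    (hd4 : d ≤ 1 / 4) (hL1 : 1 ≤ L) (hLd : Real.log 2 / d ≤ L) (hv : 0 < v) (hB : 0 < B)
    (hT0 : 0 < T) (hT : B * v ≤ T) (hτ : tauT v B T < 1) (hη0 : 0 < η0)
    (hpar : ∀ η, 0 ≤ η → η ≤ η0 →
      thT 1 v ((1 + d) * (2 * Real.pi * a' / L)) B T η
          ≤ Real.exp (-((Real.pi / a') * (1 - 3 * d) * L)) ∧
        thT 4 v ((1 + d) * (2 * Real.pi * a' / L)) B T η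
          ≤ Real.exp (-(4 * (Real.pi / a') * (1 - 3 * d) * L)))
    (hc : 0 < c) (hc2 : c ≤ 1 / 2) (hc24 : 24 * c ^ 2 ≤ d * (2 * Real.pi * a' / L))
    (hr0 : 272 / d ≤ r0) (hL₀ : 0 < L₀) (hCb : 0 ≤ Cb) (hcb : 0 < cb)
    (hT' : T' = T + sB ((1 + d) * (2 * Real.pi * a' / L)) B)
    {K M ξ r N : ℕ} [NeZero N] [NeZero M] {b y a : ℝ} (hb : 0 ≤ b)
    (hK1 : 4 / d + 2 ≤ K) (hK2 : 48 * T' / (L₀ * r0 * L) ≤ K)
    (hK3 : CE3 (Real.exp L) Cb cb * T' ^ 3 / (r0 * η0) ≤ K)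
    (hX : r0 / c * K ≤ M) (hξ : 0 < ξ) (hN : N = K * M * ξ) (hr : 2 * r ≤ ξ)
    (hy : 0 ≤ y) (hyV : y * ((K : ℝ) * M) ^ 2 ≤ 1) (ha : 0 ≤ a) (haa : a ≤ a')
    (hQ : QU (wT b N) ξ y a) (hBO : BOut (wT b N) ξ (L₀ / ξ) Cb cb)
    (x0 : Tor M) {F : (Tor M → ℝ) → ℂ} {B0 B1 pb : ℝ} {m : ℕ} (hm : 1 ≤ m)
    (hFm : Measurable F) (hF0 : ∀ G, ‖F G‖ ≤ B0) (hB1 : 0 ≤ B1)
    (hF1 : ∀ G, LipT (L₀ / (4 * ξ)) (AA (N := N) (K * ξ) r G) → ‖F G‖ ≤ B1)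
    (hF2 : ∀ G Ψ : Tor M → ℝ, ∀ t : ℝ, (∀ u, tn (u - x0) ≤ r0 → Ψ u = 1) →
      F (G + t • Ψ) = ch (m : ℤ) (-t) * F G)
    (hpb : (∫ G in {G : Tor M → ℝ | LipT (L₀ / (8 * ξ)) (AA (N := N) (K * ξ) r G)}ᶜ,
        rho (wT b N) (ms ξ) (AA (K * ξ) r) (s2c M K) G)
      ≤ pb * ∫ G : Tor M → ℝ, rho (wT b N) (ms ξ) (AA (N := N) (K * ξ) r) (s2c M K) G) :
    ‖∫ G : Tor M → ℝ, F G * (rho (wT b N) (ms ξ) (AA (K * ξ) r) (s2c M K) G : ℂ)‖ ≤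
      (B0 * pb + (B1 * (Real.exp ((1 + Real.exp (40 * T' ^ 2 * c ^ 2)) *
          (T' ^ 2 * (Cb * Real.exp (2 * cb)) * ((K : ℝ) * M) ^ 6 * Real.exp (-(cb * K)))) - 1) +
        Real.exp (40 * T' ^ 2 * c ^ 2) *
          (2 * Real.exp L * r0 / c) ^ (4 * (Real.pi / a' * (1 - 4 * d))) * B1 *
            gg (Real.pi / a' * (1 - 4 * d)) K M m)) *
        ∫ G : Tor M → ℝ, rho (wT b N) (ms ξ) (AA (N := N) (K * ξ) r) (s2c M K) G := by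
  have hpi := Real.pi_pos
  have hL0 : 0 < L := by linarith
  have hξ' : (0 : ℝ) < ξ := by exact_mod_cast hξ
  have hr010 : 10 ≤ r0 := by
    refine le_trans ?_ hr0
    rw [le_div_iff₀ hd]
    linarith
  have hr00 : 0 < r0 := by linarith
  have h4d : 16 ≤ 4 / d := by
    rw [le_div_iff₀ hd]
    linarith
  have hK18 : (18 : ℝ) ≤ K := by linarith
  have hK0 : (0 : ℝ) < K := by linarith
  have hKn : 18 ≤ K := by exact_mod_cast hK18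
  have hK1n : 1 ≤ K := by omega
  have hM20 : (20 : ℝ) ≤ M := by
    have h1 : 20 ≤ r0 / c := by
      rw [le_div_iff₀ hc]
      linarith
    refine le_trans ?_ hX
    calc (20 : ℝ) = 20 * 1 := by norm_num
      _ ≤ r0 / c * K := mul_le_mul h1 (by linarith) (by norm_num) (by linarith)
  have hM4 : 4 ≤ M := by
    have : (4 : ℝ) ≤ M := by linarith
    exact_mod_cast this
  have hM2 : 2 ≤ M := by omega
  have hX1 : 1 ≤ Xr c r0 M K := by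
    unfold Xr
    rw [le_div_iff₀ (by positivity), one_mul]
    rw [div_mul_eq_mul_div, div_le_iff₀ hc] at hX
    linarith
  have hqb0 : 0 < (1 + d) * (2 * Real.pi * a' / L) := by positivity
  have hsB : 0 < sB ((1 + d) * (2 * Real.pi * a' / L)) B := by unfold sB; positivity
  have hT'0 : 0 < T' := by rw [hT']; linarith
  have hTT' : T ≤ T' := by rw [hT']; linarith
  have h2K : 2 * ξ ≤ K * ξ := Nat.mul_le_mul_right ξ (by omega)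
  have h4r : 4 * r ≤ K * ξ := by omega
  -- slopes
  have hsl : 6 * T' / (r0 * L * K) ≤ L₀ / 8 := by
    rw [div_le_iff₀ (by positivity)] at hK2
    rw [div_le_iff₀ (by positivity)]
    linarith
  have hsl1 : L₀ / 8 + 6 * T / (r0 * L * K) ≤ L₀ / 4 := by
    have : 6 * T / (r0 * L * K) ≤ 6 * T' / (r0 * L * K) := by
      apply div_le_div_of_nonneg_right _ (by positivity)
      linarith
    linarith
  have hsl2 : L₀ / 4 + 6 * T' / (r0 * L * K) ≤ L₀ := by linarith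
  have hCE : 0 ≤ CE3 (Real.exp L) Cb cb := CE3_nonneg (Real.one_lt_exp_iff.2 hL0) hcb
  have hE3 : CE3 (Real.exp L) Cb cb / (K * r0) * T' ^ 3 ≤ η0 := by
    rw [div_le_iff₀ (by positivity)] at hK3
    rw [div_mul_eq_mul_div, div_le_iff₀ (by positivity)]
    linarith
  have hη1 : 0 ≤ CE3 (Real.exp L) Cb cb / (K * r0) * T' ^ 3 := by positivity
  have hkk0 : (0 : ℝ) ≤ if m = 1 then 1 else 4 := by
    split_ifs <;> norm_num
  have hkm : (if m = 1 then 1 else 4 : ℝ) ≤ (((m : ℕ) : ℤ) : ℝ) ^ 2 := by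
    split_ifs with h
    · rw [h]; norm_num
    · have h2 : 2 ≤ m := by omega
      have h3 : (2 : ℝ) ≤ (((m : ℕ) : ℤ) : ℝ) := by exact_mod_cast h2
      nlinarith
  have e8 : L₀ / (8 * ξ) = L₀ / 8 / ξ := by rw [div_div]
  have e4 : L₀ / (4 * ξ) = L₀ / 4 / ξ := by rw [div_div]
  rw [e8] at hpb
  rw [e4] at hF1
  have key := cell_raw (b := b) (N := N) hL1 hv hB hT0 hT hτ hqb0 hr010 hCb hcb hT' hb hsl1 hsl2
    hK1n hM2 hX1 hξ hN h4r hy hyV ha hQ hBO x0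
    (fun i => c5_hq ha' hd hd4 hL1 hc2 hc24 hr0 hr010 hK1 hM4 hK1n hX1 hξ hr hy hyV ha haa x0 i)
    hkk0 hkm hFm hF0 hB1 hF1 hF2
  have hρ0 : 0 ≤ ∫ G : Tor M → ℝ, rho (wT b N) (ms ξ) (AA (N := N) (K * ξ) r) (s2c M K) G :=
    integral_nonneg fun G => (Real.exp_pos _).le
  have hB0 : 0 ≤ B0 := (norm_nonneg _).trans (hF0 0)
  obtain ⟨hp1, hp4⟩ := hpar _ hη1 hE3
  obtain ⟨hth1, hth2⟩ := theta_gg (K := K) (M := M) ha' hd hd4 hL1 hLd hv hT0 hτ hη1 hp1 hp4 hc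
    hc2 hr010 (by omega) hX1 m
  have hd1 := d1_le (T' := T') (cb := cb) (M := M) hL0 (by linarith) (by linarith) hK1n hX1 hCb
  set I' : ℝ := (nsh L (Xr c r0 M K) : ℝ) * ((nsh L (Xr c r0 M K) : ℝ) * (T' ^ 2 *
          (((K * M : ℕ) : ℝ) ^ 4 * (Cb * Real.exp (-(cb * ((K : ℝ) - 2))))))) with hI'
  have hI'0 : 0 ≤ I' := by positivity
  set Z := ∫ G : Tor M → ℝ, rho (wT b N) (ms ξ) (AA (N := N) (K * ξ) r) (s2c M K) G with hZ
  set A := Real.exp (40 * T' ^ 2 * c ^ 2) with hA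
  have hA1 : 1 ≤ A := Real.one_le_exp (by positivity)
  set θI := thT (if m = 1 then 1 else 4) v ((1 + d) * (2 * Real.pi * a' / L)) B T
      (CE3 (Real.exp L) Cb cb / (K * r0) * T' ^ 3) ^ nsh L (Xr c r0 M K) with hθI
  have hfin := fin_num (B1 := B1) (x := I') (A := A) (θI := θI)
    (d1 := (1 + A) * (T' ^ 2 * (Cb * Real.exp (2 * cb)) * ((K : ℝ) * M) ^ 6 *
      Real.exp (-(cb * K))))
    (Cg := A * (2 * Real.exp L * r0 / c) ^ (4 * (Real.pi / a' * (1 - 4 * d))))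
    (g := gg (Real.pi / a' * (1 - 4 * d)) K M m) hB1 hI'0 hA1 hth1
    (mul_le_mul_of_nonneg_left hd1 (by positivity)) (by
      rw [mul_assoc]
      exact mul_le_mul_of_nonneg_left hth2 (by positivity))
  refine key.trans ?_
  have e2 : Real.exp (I' + 2 * (20 * T' ^ 2 * c ^ 2)) = Real.exp I' * A := by
    rw [Real.exp_add, hA]
    congr 2
    ring
  rw [e2, zero_add]
  have h7 : B0 * (∫ G in {G : Tor M → ℝ | LipT (L₀ / 8 / ξ) (AA (N := N) (K * ξ) r G)}ᶜ,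
        rho (wT b N) (ms ξ) (AA (K * ξ) r) (s2c M K) G) ≤ B0 * (pb * Z) :=
    mul_le_mul_of_nonneg_left hpb hB0
  have h8 := mul_le_mul_of_nonneg_right hfin hρ0
  calc _ ≤ B0 * (pb * Z) + (B1 * (Real.exp I' - 1) + B1 * (Real.exp I' * A) * θI) * Z := by
        linarith
    _ ≤ B0 * (pb * Z) + _ := add_le_add le_rfl h8
    _ = _ := by ring

end Vale.Agent.P159.TM.H783
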