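import Mathlib

/-!
[783] P159, part C5 of 617 #12802: the abstract shell lemma, general core (any kernel `κ`).
-/

open MeasureTheory Complex

set_option linter.unusedSectionVars false

namespace Vale.Agent.P159.TM.H783

variable {E ι : Type*} [NormedAddCommGroup E] [NormedSpace ℝ E] [MeasurableSpace E] [BorelSpace E]
  [SecondCountableTopology E] [Fintype ι]

/-- the total shift -/
def sh (ψ : ι → E) (t : ι → ℝ) : E := ∑ i, t i • ψ i

theorem sh_cont (ψ : ι → E) : Continuous (sh ψ) := by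
  unfold sh
  fun_prop

theorem shift_meas (ψ : ι → E) : Measurable fun x : (ι → ℝ) × E => x.2 + sh ψ x.1 := by
  have : Continuous fun x : (ι → ℝ) × E => x.2 + sh ψ x.1 :=
    continuous_snd.add ((sh_cont ψ).comp continuous_fst)
  exact this.measurable

theorem ae_box {κ : Measure ℝ} [SigmaFinite κ] {T : ℝ} (hκ : ∀ᵐ t ∂κ, |t| ≤ T) :
    ∀ᵐ t ∂(Measure.pi fun _ : ι => κ), ∀ i, |t i| ≤ T :=
  ae_all_iff.2 fun i => (Measure.tendsto_eval_ae_ae (μ := fun _ : ι => κ) (i := i)).eventually hκ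

theorem shift_int {F' : Type*} [NormedAddCommGroup F'] [NormedSpace ℝ F']
    (μ : Measure E) [SigmaFinite μ] [μ.IsAddRightInvariant]
    {f : E → F'} (hf : Integrable f μ) (ψ : ι → E) (P : Measure (ι → ℝ)) [IsFiniteMeasure P]
    (hfm : StronglyMeasurable f) :
    Integrable (fun x : (ι → ℝ) × E => f (x.2 + sh ψ x.1)) (P.prod μ) := by
  have h0 : AEStronglyMeasurable (fun x : (ι → ℝ) × E => f (x.2 + sh ψ x.1)) (P.prod μ) :=
    (hfm.comp_measurable (shift_meas ψ)).aestronglyMeasurable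
  rw [integrable_prod_iff h0]
  refine ⟨Filter.Eventually.of_forall fun t => hf.comp_add_right (sh ψ t), ?_⟩
  have : (fun t : ι → ℝ => ∫ g, ‖f (g + sh ψ t)‖ ∂μ) = fun _ => ∫ g, ‖f g‖ ∂μ := by
    funext t
    exact integral_add_right_eq_self (μ := μ) (fun g => ‖f g‖) (sh ψ t)
  simp only [this]
  exact integrable_const _

theorem shift_int_eq {F' : Type*} [NormedAddCommGroup F'] [NormedSpace ℝ F'] [CompleteSpace F']
    (μ : Measure E) [SigmaFinite μ] [μ.IsAddRightInvariant]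
    {f : E → F'} (hf : Integrable f μ) (ψ : ι → E) (P : Measure (ι → ℝ)) [IsFiniteMeasure P]
    (hfm : StronglyMeasurable f) :
    ∫ x : (ι → ℝ) × E, f (x.2 + sh ψ x.1) ∂(P.prod μ) = P.real Set.univ • ∫ g, f g ∂μ := by
  rw [integral_prod _ (shift_int μ hf ψ P hfm)]
  have : (fun t : ι → ℝ => ∫ g, f (g + sh ψ t) ∂μ) = fun _ => ∫ g, f g ∂μ := by
    funext t
    exact integral_add_right_eq_self (μ := μ) f (sh ψ t)
  simp only [this, integral_const]

theorem abs_exp_sub_one {x d : ℝ} (h : |x| ≤ d) : |Real.exp x - 1| ≤ Real.exp d - 1 := by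
  have h1 := Real.exp_le_exp.2 ((le_abs_self x).trans h)
  have h2 := Real.exp_le_exp.2 ((neg_le_neg h).trans (neg_abs_le x))
  have h3 := Real.add_one_le_exp d
  have h4 := Real.add_one_le_exp (-d)
  rw [abs_le]
  constructor <;> linarith

/-- the weight ratio -/
noncomputable def w (ρ : E → ℝ) (g s : E) : ℝ := ρ (g + s) / ρ g

theorem core (μ : Measure E) [SigmaFinite μ] [μ.IsAddRightInvariant]
    {ρ : E → ℝ} (hρm : Measurable ρ) (hρ0 : ∀ g, 0 < ρ g) (hρi : Integrable ρ μ)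
    {G G' : Set E} (hG : MeasurableSet G) (hG' : MeasurableSet G')
    {F : E → ℂ} (hFm : Measurable F) {B0 B1 : ℝ} (hFB : ∀ g, ‖F g‖ ≤ B0)
    (hB1 : 0 ≤ B1) (hFB1 : ∀ g ∈ G', ‖F g‖ ≤ B1)
    (ψ : ι → E) {m T T' δ0 δ1 qs : ℝ} (hδ0 : 0 ≤ δ0) (hδ1 : 0 ≤ δ1)
    {q : (ι → ℝ) → ℝ} (hqm : Measurable q) (hq : ∀ t : ι → ℝ, (∀ i, |t i| ≤ T') → |q t| ≤ qs)
    (κ lam : Measure ℝ) [IsProbabilityMeasure κ] [IsFiniteMeasure lam]
    (hκ : ∀ᵐ t ∂κ, |t| ≤ T) (hlam : ∀ᵐ t ∂lam, |t| ≤ T') (hTT : T ≤ T')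
    (H1 : ∀ g ∈ G, ∀ t : ι → ℝ, (∀ i, |t i| ≤ T) → g - sh ψ t ∈ G')
    (H2 : ∀ g ∈ G', ∀ t : ι → ℝ, (∀ i, |t i| ≤ T) →
      ‖F (g + sh ψ t) - cexp ((2 * Real.pi * m * ∑ i, t i : ℝ) * I) * F g‖ ≤ δ0)
    (H3 : ∀ g ∈ G', ∀ t : ι → ℝ, (∀ i, |t i| ≤ T') →
      |Real.log (ρ (g + sh ψ t)) - Real.log (ρ g)
        - ∑ i, (Real.log (ρ (g + t i • ψ i)) - Real.log (ρ g)) + q t| ≤ δ1)
    (HJ : ∀ g ∈ G', ∀ i,
      ‖∫ t, cexp ((2 * Real.pi * m * t : ℝ) * I) * (w ρ g (t • ψ i) : ℂ) ∂κ‖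
        ≤ ∫ t, w ρ g (t • ψ i) ∂lam) :
    ‖∫ g, F g * (ρ g : ℂ) ∂μ‖ ≤ B0 * ∫ g in Gᶜ, ρ g ∂μ
      + (δ0 + B1 * (Real.exp δ1 - 1)) * ∫ g, ρ g ∂μ
      + B1 * Real.exp (δ1 + 2 * qs) * lam.real Set.univ ^ Fintype.card ι * ∫ g, ρ g ∂μ := by
  classical
  have hB0 : 0 ≤ B0 := (norm_nonneg _).trans (hFB 0)
  set P : Measure (ι → ℝ) := Measure.pi fun _ : ι => κ with hP
  set Λ : Measure (ι → ℝ) := Measure.pi fun _ : ι => lam with hΛ
  have : IsProbabilityMeasure P := by rw [hP]; infer_instance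
  have : IsFiniteMeasure Λ := by rw [hΛ]; infer_instance
  have hPb : ∀ᵐ t ∂P, ∀ i, |t i| ≤ T := ae_box hκ
  have hΛb : ∀ᵐ t ∂Λ, ∀ i, |t i| ≤ T' := ae_box hlam
  have hqs : 0 ≤ qs := by
    obtain ⟨t, ht⟩ := hPb.exists
    exact (abs_nonneg _).trans (hq t fun i => (ht i).trans hTT)
  -- the weight of the joint kernel
  set e : (ι → ℝ) → ℝ := fun t => Real.exp (q t) with he
  have hem : Measurable e := Real.measurable_exp.comp hqm
  have hepos : ∀ t, 0 < e t := fun t => Real.exp_pos _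
  have heub : ∀ t : ι → ℝ, (∀ i, |t i| ≤ T') → e t ≤ Real.exp qs := fun t ht =>
    Real.exp_le_exp.2 ((le_abs_self _).trans (hq t ht))
  have helb : ∀ t : ι → ℝ, (∀ i, |t i| ≤ T') → Real.exp (-qs) ≤ e t := fun t ht =>
    Real.exp_le_exp.2 ((neg_le_neg (hq t ht)).trans (neg_abs_le _))
  have hPb' : ∀ᵐ t ∂P, ∀ i, |t i| ≤ T' := by
    filter_upwards [hPb] with t ht i
    exact (ht i).trans hTT
  have heP : Integrable e P := by
    refine (integrable_const (Real.exp qs)).mono' hem.aestronglyMeasurable ?_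
    filter_upwards [hPb'] with t ht
    rw [Real.norm_eq_abs, abs_of_pos (hepos t)]
    exact heub t ht
  have heΛ : Integrable e Λ := by
    refine (integrable_const (Real.exp qs)).mono' hem.aestronglyMeasurable ?_
    filter_upwards [hΛb] with t ht
    rw [Real.norm_eq_abs, abs_of_pos (hepos t)]
    exact heub t ht
  set N : ℝ := ∫ t, e t ∂P with hN
  have hNlb : Real.exp (-qs) ≤ N := by
    have h1 : ∫ t, Real.exp (-qs) ∂P ≤ ∫ t, e t ∂P := by
      refine integral_mono_ae (integrable_const _) heP ?_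
      filter_upwards [hPb'] with t ht
      exact helb t ht
    simpa using h1
  have hNpos : 0 < N := (Real.exp_pos _).trans_le hNlb
  -- pointwise consequences of H3
  have key : ∀ g ∈ G', ∀ t : ι → ℝ, (∀ i, |t i| ≤ T') →
      |ρ g * ∏ i, w ρ g (t i • ψ i) - e t * ρ (g + sh ψ t)|
        ≤ (Real.exp δ1 - 1) * (e t * ρ (g + sh ψ t)) := by
    intro g hg t ht
    have h := H3 g hg t ht
    set x := ∑ i, (Real.log (ρ (g + t i • ψ i)) - Real.log (ρ g))
      - (Real.log (ρ (g + sh ψ t)) - Real.log (ρ g)) - q t with hx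
    have hx' : |x| ≤ δ1 := by
      rw [hx, ← abs_neg]
      convert h using 2
      ring
    have h1 : ρ g * ∏ i, w ρ g (t i • ψ i) = e t * ρ (g + sh ψ t) * Real.exp x := by
      have e1 : ∏ i, w ρ g (t i • ψ i)
          = Real.exp (∑ i, (Real.log (ρ (g + t i • ψ i)) - Real.log (ρ g))) := by
        rw [Real.exp_sum]
        refine Finset.prod_congr rfl fun i _ => ?_
        rw [Real.exp_sub, Real.exp_log (hρ0 _), Real.exp_log (hρ0 _)]
        rfl
      rw [e1, hx, Real.exp_sub, Real.exp_sub, Real.exp_sub, Real.exp_log (hρ0 _),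
        Real.exp_log (hρ0 _)]
      have := (hρ0 g).ne'
      have := (hρ0 (g + sh ψ t)).ne'
      have := (hepos t).ne'
      simp only [he] at *
      field_simp
    have hp : 0 < e t * ρ (g + sh ψ t) := mul_pos (hepos t) (hρ0 _)
    rw [h1, ← mul_sub_one, abs_mul, abs_of_pos hp, mul_comm]
    exact mul_le_mul_of_nonneg_right (abs_exp_sub_one hx') hp.le
  have key2 : ∀ g ∈ G', ∀ t : ι → ℝ, (∀ i, |t i| ≤ T') →
      ρ g * ∏ i, w ρ g (t i • ψ i) ≤ Real.exp δ1 * (e t * ρ (g + sh ψ t)) := by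
    intro g hg t ht
    have := (abs_le.1 (key g hg t ht)).2
    linarith
  have wpos : ∀ g s, 0 < w ρ g s := fun g s => div_pos (hρ0 _) (hρ0 _)
  have wmeas : ∀ i : ι, Measurable fun x : (ι → ℝ) × E => w ρ x.2 (x.1 i • ψ i) := by
    intro i
    unfold w
    have h1 : Measurable fun x : (ι → ℝ) × E => x.2 + x.1 i • ψ i := by
      have : Continuous fun x : (ι → ℝ) × E => x.2 + x.1 i • ψ i := by fun_prop
      exact this.measurable
    exact (hρm.comp h1).div (hρm.comp measurable_snd)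
  -- the shifted integrand
  have hFρ : Integrable (fun g => F g * (ρ g : ℂ)) μ := by
    have := (hρi.ofReal (𝕜 := ℂ)).bdd_mul (c := B0) hFm.aestronglyMeasurable
      (Filter.Eventually.of_forall hFB)
    exact this
  have hFρm : StronglyMeasurable fun g => F g * (ρ g : ℂ) :=
    (hFm.mul (Complex.measurable_ofReal.comp hρm)).stronglyMeasurable
  -- weighted shifted integrals
  have hwint : ∀ (Q : Measure (ι → ℝ)) [IsFiniteMeasure Q], (∀ᵐ t ∂Q, ∀ i, |t i| ≤ T') →
      Integrable e Q → Integrable (fun x : (ι → ℝ) × E => e x.1 * ρ (x.2 + sh ψ x.1)) (Q.prod μ) ∧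
      ∫ x : (ι → ℝ) × E, e x.1 * ρ (x.2 + sh ψ x.1) ∂(Q.prod μ) = (∫ t, e t ∂Q) * ∫ g, ρ g ∂μ := by
    intro Q _ hQ heQ
    have haeQ : ∀ᵐ x ∂(Q.prod μ), ∀ i, |x.1 i| ≤ T' :=
      (Measure.quasiMeasurePreserving_fst (μ := Q) (ν := μ)).ae hQ
    have h1 : Integrable (fun x : (ι → ℝ) × E => e x.1 * ρ (x.2 + sh ψ x.1)) (Q.prod μ) := by
      refine ((shift_int μ hρi ψ Q hρm.stronglyMeasurable).const_mul (Real.exp qs)).mono'
        ((hem.comp measurable_fst).mul (hρm.comp (shift_meas ψ))).aestronglyMeasurable ?_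
      filter_upwards [haeQ] with x hx
      have hp : 0 < ρ (x.2 + sh ψ x.1) := hρ0 _
      rw [Real.norm_eq_abs, abs_of_pos (mul_pos (hepos _) hp)]
      exact mul_le_mul_of_nonneg_right (heub _ hx) hp.le
    refine ⟨h1, ?_⟩
    rw [integral_prod _ h1]
    have h2 : (fun t : ι → ℝ => ∫ g, e t * ρ (g + sh ψ t) ∂μ) = fun t => e t * ∫ g, ρ g ∂μ := by
      funext t
      rw [integral_const_mul, integral_add_right_eq_self (μ := μ) ρ (sh ψ t)]
    simp only [h2]
    rw [integral_mul_const]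
  set k : (ι → ℝ) × E → ℂ := fun x =>
    (e x.1 : ℂ) * (F (x.2 + sh ψ x.1) * (ρ (x.2 + sh ψ x.1) : ℂ)) with hk
  set r : (ι → ℝ) × E → ℝ := fun x => e x.1 * ρ (x.2 + sh ψ x.1) with hr
  have hrpos : ∀ x, 0 < r x := fun x => mul_pos (hepos _) (hρ0 _)
  have hrm : Measurable r := (hem.comp measurable_fst).mul (hρm.comp (shift_meas ψ))
  have hriP : Integrable r (P.prod μ) := (hwint P hPb' heP).1
  have hriΛ : Integrable r (Λ.prod μ) := (hwint Λ hΛb heΛ).1
  have hrintP : ∫ x, r x ∂(P.prod μ) = N * ∫ g, ρ g ∂μ := (hwint P hPb' heP).2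
  have hrintΛ : ∫ x, r x ∂(Λ.prod μ) = (∫ t, e t ∂Λ) * ∫ g, ρ g ∂μ := (hwint Λ hΛb heΛ).2
  have hkm : Measurable k := by
    refine Measurable.mul ?_ (hFρm.measurable.comp (shift_meas ψ))
    exact Complex.measurable_ofReal.comp (hem.comp measurable_fst)
  have hki : Integrable k (P.prod μ) := by
    refine (hriP.const_mul B0).mono' hkm.aestronglyMeasurable (Filter.Eventually.of_forall ?_)
    intro x
    simp only [hk, hr]
    rw [norm_mul, norm_mul, Complex.norm_real, Complex.norm_real, Real.norm_eq_abs,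
      Real.norm_eq_abs, abs_of_pos (hepos _), abs_of_pos (hρ0 _)]
    have h1 := hFB (x.2 + sh ψ x.1)
    have h2 : 0 < e x.1 * ρ (x.2 + sh ψ x.1) := mul_pos (hepos _) (hρ0 _)
    nlinarith
  have hkint : ∫ x, k x ∂(P.prod μ) = (N : ℂ) * ∫ g, F g * (ρ g : ℂ) ∂μ := by
    rw [integral_prod _ hki]
    have h2 : (fun t : ι → ℝ => ∫ g, k (t, g) ∂μ)
        = fun t => (e t : ℂ) * ∫ g, F g * (ρ g : ℂ) ∂μ := by
      funext t
      simp only [hk]
      rw [integral_const_mul]
      congr 1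
      exact integral_add_right_eq_self (μ := μ) (fun g => F g * (ρ g : ℂ)) (sh ψ t)
    rw [h2, integral_mul_const, integral_complex_ofReal]
  -- the product integrand
  set h : (ι → ℝ) × E → ℂ := fun x =>
    G'.indicator (fun g => (∏ i, (cexp ((2 * Real.pi * m * x.1 i : ℝ) * I)
      * (w ρ g (x.1 i • ψ i) : ℂ))) * (F g * (ρ g : ℂ))) x.2 with hh
  have hhm : Measurable h := by
    have h1 : Measurable fun x : (ι → ℝ) × E =>
        (∏ i, (cexp ((2 * Real.pi * m * x.1 i : ℝ) * I) * (w ρ x.2 (x.1 i • ψ i) : ℂ)))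
          * (F x.2 * (ρ x.2 : ℂ)) := by
      refine Measurable.mul ?_ (hFρm.measurable.comp measurable_snd)
      refine Finset.measurable_prod _ fun i _ => ?_
      refine Measurable.mul ?_ (Complex.measurable_ofReal.comp (wmeas i))
      have : Continuous fun x : (ι → ℝ) × E => cexp ((2 * Real.pi * m * x.1 i : ℝ) * I) := by
        fun_prop
      exact this.measurable
    have h2 : h = (Prod.snd ⁻¹' G').indicator fun x : (ι → ℝ) × E =>
        (∏ i, (cexp ((2 * Real.pi * m * x.1 i : ℝ) * I) * (w ρ x.2 (x.1 i • ψ i) : ℂ)))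
          * (F x.2 * (ρ x.2 : ℂ)) := by
      funext x
      simp only [hh, Set.indicator, Set.mem_preimage]
    rw [h2]
    exact h1.indicator (measurable_snd hG')
  have normprod : ∀ (t : ι → ℝ) (g : E), ‖(∏ i, (cexp ((2 * Real.pi * m * t i : ℝ) * I)
      * (w ρ g (t i • ψ i) : ℂ))) * (F g * (ρ g : ℂ))‖
      = (ρ g * ∏ i, w ρ g (t i • ψ i)) * ‖F g‖ := by
    intro t g
    rw [norm_mul, norm_mul, norm_prod, Complex.norm_real, Real.norm_eq_abs, abs_of_pos (hρ0 g)]
    have : ∀ i, ‖cexp ((2 * Real.pi * m * t i : ℝ) * I) * (w ρ g (t i • ψ i) : ℂ)‖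
        = w ρ g (t i • ψ i) := by
      intro i
      rw [norm_mul, Complex.norm_exp_ofReal_mul_I, one_mul, Complex.norm_real, Real.norm_eq_abs,
        abs_of_pos (wpos _ _)]
    simp only [this]
    ring
  have hae : ∀ᵐ x ∂(P.prod μ), ∀ i, |x.1 i| ≤ T :=
    (Measure.quasiMeasurePreserving_fst (μ := P) (ν := μ)).ae hPb
  have hhi : Integrable h (P.prod μ) := by
    refine (hriP.const_mul (B1 * Real.exp δ1)).mono' hhm.aestronglyMeasurable ?_
    filter_upwards [hae] with x hx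
    have hp := hrpos x
    by_cases hg : x.2 ∈ G'
    · simp only [hh, Set.indicator_of_mem hg]
      rw [normprod]
      have h1 := key2 x.2 hg x.1 fun i => (hx i).trans hTT
      calc (ρ x.2 * ∏ i, w ρ x.2 (x.1 i • ψ i)) * ‖F x.2‖
          ≤ (Real.exp δ1 * r x) * B1 :=
            mul_le_mul h1 (hFB1 _ hg) (norm_nonneg _) (by positivity)
        _ = B1 * Real.exp δ1 * r x := by ring
    · simp only [hh, Set.indicator_of_notMem hg, norm_zero]
      positivity
  -- difference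
  set c : (ι → ℝ) × E → ℝ := fun x => G'ᶜ.indicator (fun _ => r x) x.2 with hc
  have hcm : Measurable c := by
    have h2 : c = (Prod.snd ⁻¹' G'ᶜ).indicator r := by
      funext x
      simp only [hc, Set.indicator, Set.mem_preimage]
    rw [h2]
    exact hrm.indicator (measurable_snd hG'.compl)
  have hci : Integrable c (P.prod μ) := by
    refine hriP.mono' hcm.aestronglyMeasurable (Filter.Eventually.of_forall fun x => ?_)
    have hp := hrpos x
    by_cases hg : x.2 ∈ G'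
    · have : x.2 ∉ G'ᶜ := fun h => h hg
      simp only [hc, Set.indicator_of_notMem this, norm_zero]
      exact hp.le
    · have : x.2 ∈ G'ᶜ := hg
      simp only [hc, Set.indicator_of_mem this]
      rw [Real.norm_eq_abs, abs_of_pos]
      exact hp
  have hcint : ∫ x, c x ∂(P.prod μ) ≤ N * ∫ g in Gᶜ, ρ g ∂μ := by
    rw [integral_prod _ hci]
    have h1 : ∀ᵐ t ∂P, ∫ g, c (t, g) ∂μ ≤ e t * ∫ g in Gᶜ, ρ g ∂μ := by
      filter_upwards [hPb] with t ht
      have e1 : ∫ g, c (t, g) ∂μ = e t * ∫ g, G'ᶜ.indicator (fun _ => ρ g) (g - sh ψ t) ∂μ := by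
        rw [← integral_add_right_eq_self (μ := μ)
          (fun g => G'ᶜ.indicator (fun _ => ρ g) (g - sh ψ t)) (sh ψ t), ← integral_const_mul]
        refine integral_congr_ae (Filter.Eventually.of_forall fun g => ?_)
        simp only [add_sub_cancel_right, hc, hr, Set.indicator]
        split_ifs <;> simp
      rw [e1, ← integral_indicator hG.compl]
      refine mul_le_mul_of_nonneg_left ?_ (hepos t).le
      refine integral_mono_of_nonneg (Filter.Eventually.of_forall fun g => ?_)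
        (hρi.indicator hG.compl) (Filter.Eventually.of_forall fun g => ?_)
      · exact Set.indicator_nonneg (fun _ _ => (hρ0 g).le) _
      · by_cases hg : g ∈ G
        · have h2 : g - sh ψ t ∉ G'ᶜ := fun h => h (H1 g hg t ht)
          simp only [Set.indicator_of_notMem h2]
          exact Set.indicator_nonneg (fun _ _ => (hρ0 _).le) _
        · have h3 : g ∈ Gᶜ := hg
          simp only [Set.indicator_of_mem h3]
          by_cases h4 : g - sh ψ t ∈ G'ᶜ
          · simp only [Set.indicator_of_mem h4, le_refl]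
          · simp only [Set.indicator_of_notMem h4]
            exact (hρ0 g).le
    calc ∫ t, ∫ g, c (t, g) ∂μ ∂P ≤ ∫ t, (e t * ∫ g in Gᶜ, ρ g ∂μ) ∂P :=
          integral_mono_ae hci.integral_prod_left (heP.mul_const _) h1
      _ = N * ∫ g in Gᶜ, ρ g ∂μ := by rw [integral_mul_const]
  have hdiff : ‖∫ x, k x ∂(P.prod μ) - ∫ x, h x ∂(P.prod μ)‖
      ≤ N * ((δ0 + B1 * (Real.exp δ1 - 1)) * ∫ g, ρ g ∂μ + B0 * ∫ g in Gᶜ, ρ g ∂μ) := by
    rw [← integral_sub hki hhi]
    have hb : Integrable (fun x => (δ0 + B1 * (Real.exp δ1 - 1)) * r x + B0 * c x) (P.prod μ) :=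
      (hriP.const_mul _).add (hci.const_mul _)
    refine (norm_integral_le_of_norm_le hb ?_).trans ?_
    · filter_upwards [hae] with x hx
      have hp := hρ0 (x.2 + sh ψ x.1)
      have hp2 := hrpos x
      have he1 : 0 ≤ Real.exp δ1 - 1 := by
        have := Real.add_one_le_exp δ1
        linarith
      by_cases hg : x.2 ∈ G'
      · have hg' : x.2 ∉ G'ᶜ := fun h => h hg
        simp only [hh, hk, hc, Set.indicator_of_mem hg, Set.indicator_of_notMem hg', mul_zero,
          add_zero]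
        have e2 : (∏ i, (cexp ((2 * Real.pi * m * x.1 i : ℝ) * I) * (w ρ x.2 (x.1 i • ψ i) : ℂ)))
            = cexp ((2 * Real.pi * m * ∑ i, x.1 i : ℝ) * I)
              * ((∏ i, w ρ x.2 (x.1 i • ψ i) : ℝ) : ℂ) := by
          rw [Finset.prod_mul_distrib, ← Complex.exp_sum, Complex.ofReal_prod]
          congr 2
          rw [← Finset.sum_mul]
          congr 1
          push_cast
          rw [Finset.mul_sum]
        rw [e2]
        set ex := cexp ((2 * Real.pi * m * ∑ i, x.1 i : ℝ) * I) with hex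
        have hexn : ‖ex‖ = 1 := by rw [hex, Complex.norm_exp_ofReal_mul_I]
        set W := ∏ i, w ρ x.2 (x.1 i • ψ i) with hW
        have e3 : (e x.1 : ℂ) * (F (x.2 + sh ψ x.1) * (ρ (x.2 + sh ψ x.1) : ℂ))
              - ex * (W : ℂ) * (F x.2 * (ρ x.2 : ℂ))
            = (F (x.2 + sh ψ x.1) - ex * F x.2) * (r x : ℂ)
              - ex * F x.2 * (((ρ x.2 * W - r x : ℝ)) : ℂ) := by
          simp only [hr]
          push_cast
          ring
        rw [e3]
        refine (norm_sub_le _ _).trans ?_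
        rw [norm_mul, norm_mul, norm_mul, hexn, one_mul, Complex.norm_real, Complex.norm_real,
          Real.norm_eq_abs, Real.norm_eq_abs, abs_of_pos hp2]
        have h1 := H2 x.2 hg x.1 hx
        have h2 := key x.2 hg x.1 fun i => (hx i).trans hTT
        calc _ ≤ δ0 * r x + B1 * ((Real.exp δ1 - 1) * r x) :=
              add_le_add (mul_le_mul_of_nonneg_right h1 hp2.le)
                (mul_le_mul (hFB1 _ hg) h2 (abs_nonneg _) hB1)
          _ = (δ0 + B1 * (Real.exp δ1 - 1)) * r x := by ring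
      · have hg' : x.2 ∈ G'ᶜ := hg
        simp only [hh, hk, hc, Set.indicator_of_notMem hg, Set.indicator_of_mem hg', sub_zero]
        rw [norm_mul, norm_mul, Complex.norm_real, Real.norm_eq_abs, abs_of_pos (hepos _),
          Complex.norm_real, Real.norm_eq_abs, abs_of_pos hp]
        have h1 : e x.1 * (‖F (x.2 + sh ψ x.1)‖ * ρ (x.2 + sh ψ x.1)) ≤ B0 * r x := by
          simp only [hr]
          have h0 := hFB (x.2 + sh ψ x.1)
          have h2 : 0 < e x.1 * ρ (x.2 + sh ψ x.1) := mul_pos (hepos _) (hρ0 _)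
          nlinarith
        have h2 : 0 ≤ (δ0 + B1 * (Real.exp δ1 - 1)) * r x := by positivity
        linarith
    · rw [integral_add (hriP.const_mul _) (hci.const_mul _), integral_const_mul,
        integral_const_mul, hrintP]
      have := mul_le_mul_of_nonneg_left hcint hB0
      nlinarith
  -- main term
  have hρint : 0 ≤ ∫ g, ρ g ∂μ := integral_nonneg fun g => (hρ0 g).le
  have hmain : ‖∫ x, h x ∂(P.prod μ)‖
      ≤ B1 * Real.exp δ1 * (Real.exp qs * lam.real Set.univ ^ Fintype.card ι) * ∫ g, ρ g ∂μ := by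
    rw [integral_prod_symm _ hhi]
    have hΛu : Λ.real Set.univ = lam.real Set.univ ^ Fintype.card ι := by
      rw [measureReal_def, hΛ, Measure.pi_univ, Finset.prod_const, ENNReal.toReal_pow,
        measureReal_def]
      rfl
    have hRi : Integrable (fun g => ∫ t, r (t, g) ∂Λ) μ := hriΛ.integral_prod_right
    have heΛle : ∫ t, e t ∂Λ ≤ Real.exp qs * lam.real Set.univ ^ Fintype.card ι := by
      have h1 : ∫ t, e t ∂Λ ≤ ∫ t, Real.exp qs ∂Λ := by
        refine integral_mono_ae heΛ (integrable_const _) ?_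
        filter_upwards [hΛb] with t ht
        exact heub t ht
      rw [integral_const, smul_eq_mul, hΛu, mul_comm] at h1
      exact h1
    have hRint : ∫ g, ∫ t, r (t, g) ∂Λ ∂μ
        ≤ Real.exp qs * lam.real Set.univ ^ Fintype.card ι * ∫ g, ρ g ∂μ := by
      rw [← integral_prod_symm r hriΛ, hrintΛ]
      exact mul_le_mul_of_nonneg_right heΛle hρint
    have hae2 : ∀ᵐ g ∂μ, Integrable (fun t => r (t, g)) Λ := hriΛ.prod_left_ae
    have hb : Integrable (fun g => B1 * Real.exp δ1 * ∫ t, r (t, g) ∂Λ) μ := hRi.const_mul _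
    refine (norm_integral_le_of_norm_le hb ?_).trans ?_
    · filter_upwards [hae2] with g hgi
      by_cases hg : g ∈ G'
      · have e1 : ∫ t, h (t, g) ∂P
            = (∏ i, ∫ t, cexp ((2 * Real.pi * m * t : ℝ) * I) * (w ρ g (t • ψ i) : ℂ) ∂κ)
              * (F g * (ρ g : ℂ)) := by
          simp only [hh, Set.indicator_of_mem hg]
          rw [integral_mul_const]
          congr 1
          exact integral_fintype_prod_eq_prod (μ := fun _ : ι => κ)
            (fun i t => cexp ((2 * Real.pi * m * t : ℝ) * I) * (w ρ g (t • ψ i) : ℂ))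
        rw [e1, norm_mul, norm_prod, norm_mul, Complex.norm_real, Real.norm_eq_abs,
          abs_of_pos (hρ0 g)]
        have e2 : ∏ i, ‖∫ t, cexp ((2 * Real.pi * m * t : ℝ) * I) * (w ρ g (t • ψ i) : ℂ) ∂κ‖
            ≤ ∏ i, ∫ t, w ρ g (t • ψ i) ∂lam :=
          Finset.prod_le_prod (fun i _ => norm_nonneg _) fun i _ => HJ g hg i
        have e3 : ∏ i, ∫ t, w ρ g (t • ψ i) ∂lam = ∫ t, ∏ i, w ρ g (t i • ψ i) ∂Λ :=
          (integral_fintype_prod_eq_prod (μ := fun _ : ι => lam)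
            (fun i t => w ρ g (t • ψ i))).symm
        have e4 : ρ g * ∫ t, ∏ i, w ρ g (t i • ψ i) ∂Λ ≤ Real.exp δ1 * ∫ t, r (t, g) ∂Λ := by
          rw [← integral_const_mul, ← integral_const_mul]
          refine integral_mono_of_nonneg (Filter.Eventually.of_forall fun t => ?_)
            (hgi.const_mul _) ?_
          · exact mul_nonneg (hρ0 g).le (Finset.prod_nonneg fun i _ => (wpos _ _).le)
          · filter_upwards [hΛb] with t ht
            exact key2 g hg t ht
        have e5 : 0 ≤ ∫ t, ∏ i, w ρ g (t i • ψ i) ∂Λ :=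
          integral_nonneg fun t => Finset.prod_nonneg fun i _ => (wpos _ _).le
        calc _ ≤ (∫ t, ∏ i, w ρ g (t i • ψ i) ∂Λ) * (B1 * ρ g) :=
              mul_le_mul (e3 ▸ e2) (mul_le_mul_of_nonneg_right (hFB1 g hg) (hρ0 g).le)
                (mul_nonneg (norm_nonneg _) (hρ0 g).le) e5
          _ = B1 * (ρ g * ∫ t, ∏ i, w ρ g (t i • ψ i) ∂Λ) := by ring
          _ ≤ B1 * (Real.exp δ1 * ∫ t, r (t, g) ∂Λ) := mul_le_mul_of_nonneg_left e4 hB1
          _ = _ := by ring
      · have e1 : ∫ t, h (t, g) ∂P = 0 := by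
          simp only [hh, Set.indicator_of_notMem hg, integral_zero]
        rw [e1, norm_zero]
        have : 0 ≤ ∫ t, r (t, g) ∂Λ := integral_nonneg fun t => (hrpos _).le
        positivity
    · rw [integral_const_mul]
      calc B1 * Real.exp δ1 * ∫ g, ∫ t, r (t, g) ∂Λ ∂μ
          ≤ B1 * Real.exp δ1 * (Real.exp qs * lam.real Set.univ ^ Fintype.card ι * ∫ g, ρ g ∂μ) :=
            mul_le_mul_of_nonneg_left hRint (by positivity)
        _ = _ := by ring
  have hfin : N * ‖∫ g, F g * (ρ g : ℂ) ∂μ‖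
      ≤ N * ((δ0 + B1 * (Real.exp δ1 - 1)) * ∫ g, ρ g ∂μ + B0 * ∫ g in Gᶜ, ρ g ∂μ)
        + B1 * Real.exp δ1 * (Real.exp qs * lam.real Set.univ ^ Fintype.card ι) * ∫ g, ρ g ∂μ := by
    calc N * ‖∫ g, F g * (ρ g : ℂ) ∂μ‖ = ‖(∫ x, k x ∂(P.prod μ) - ∫ x, h x ∂(P.prod μ))
          + ∫ x, h x ∂(P.prod μ)‖ := by
            rw [sub_add_cancel, hkint, norm_mul, Complex.norm_real, Real.norm_eq_abs,
              abs_of_pos hNpos]
      _ ≤ ‖∫ x, k x ∂(P.prod μ) - ∫ x, h x ∂(P.prod μ)‖ + ‖∫ x, h x ∂(P.prod μ)‖ := norm_add_le _ _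
      _ ≤ _ := by linarith [hdiff, hmain]
  set X := B1 * Real.exp δ1 * (Real.exp qs * lam.real Set.univ ^ Fintype.card ι) * ∫ g, ρ g ∂μ
    with hX
  have hX0 : 0 ≤ X := by
    have : 0 ≤ lam.real Set.univ := measureReal_nonneg
    positivity
  have hXN : X ≤ N * (Real.exp qs * X) := by
    have h1 : 1 ≤ N * Real.exp qs := by
      calc (1 : ℝ) = Real.exp (-qs) * Real.exp qs := by rw [← Real.exp_add]; simp
        _ ≤ N * Real.exp qs := mul_le_mul_of_nonneg_right hNlb (Real.exp_pos _).le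
    nlinarith
  have hfin2 : N * ‖∫ g, F g * (ρ g : ℂ) ∂μ‖
      ≤ N * ((δ0 + B1 * (Real.exp δ1 - 1)) * ∫ g, ρ g ∂μ + B0 * ∫ g in Gᶜ, ρ g ∂μ
        + Real.exp qs * X) := by
    rw [mul_add N _ (Real.exp qs * X)]
    linarith
  have hfin3 := le_of_mul_le_mul_left hfin2 hNpos
  have hXe : Real.exp qs * X
      = B1 * Real.exp (δ1 + 2 * qs) * lam.real Set.univ ^ Fintype.card ι * ∫ g, ρ g ∂μ := by
    rw [hX, show δ1 + 2 * qs = δ1 + qs + qs by ring, Real.exp_add, Real.exp_add]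
    ring
  rw [hXe] at hfin3
  linarith

end Vale.Agent.P159.TM.H783
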