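import Mathlib

/-!
[783] P159, part C5 of 617 #12802: the one-shell Gaussian inequality.
-/

open MeasureTheory ProbabilityTheory Complex

namespace Vale.Agent.P159.TM.H783

/-- the centred Gaussian of variance `v` -/
noncomputable abbrev gam (v : ℝ) : Measure ℝ := gaussianReal 0 v.toNNReal

theorem pdf_id {v q : ℝ} (hv : 0 < v) (hq : 0 ≤ q) (t : ℝ) :
    gaussianPDFReal 0 v.toNNReal t * Real.exp (-(q * t ^ 2 / 2))
      = (Real.sqrt (1 + v * q))⁻¹ * gaussianPDFReal 0 (v / (1 + v * q)).toNNReal t := by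
  have h1 : 0 < 1 + v * q := by positivity
  unfold gaussianPDFReal
  have e1 : Real.sqrt (2 * Real.pi * (v / (1 + v * q)))
      = Real.sqrt (2 * Real.pi * v) / Real.sqrt (1 + v * q) := by
    rw [← Real.sqrt_div (by positivity)]
    congr 1
    ring
  have h2 : Real.sqrt (1 + v * q) ≠ 0 := (Real.sqrt_pos.2 h1).ne'
  have h3 : Real.sqrt (2 * Real.pi * v) ≠ 0 := (Real.sqrt_pos.2 (by positivity)).ne'
  rw [Real.coe_toNNReal v hv.le, Real.coe_toNNReal (v / (1 + v * q)) (by positivity)]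
  simp only [sub_zero]
  rw [e1, mul_assoc, ← Real.exp_add]
  have e2 : -t ^ 2 / (2 * v) + -(q * t ^ 2 / 2) = -t ^ 2 / (2 * (v / (1 + v * q))) := by
    field_simp
    ring
  rw [e2]
  field_simp

theorem gauss_mgf {v q : ℝ} (hv : 0 < v) (hq : 0 ≤ q) (z : ℂ) :
    ∫ t, cexp (z * t) * (Real.exp (-(q * t ^ 2 / 2)) : ℂ) ∂(gam v)
      = ((Real.sqrt (1 + v * q))⁻¹ : ℝ) * cexp (z ^ 2 / (2 * (q + 1 / v))) := by
  have h1 : 0 < 1 + v * q := by positivity
  have hv1 : v.toNNReal ≠ 0 := by
    simpa using hv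
  have h6 : 0 < v / (1 + v * q) := by positivity
  have hv2 : (v / (1 + v * q)).toNNReal ≠ 0 := by
    simpa using h6
  rw [integral_gaussianReal_eq_integral_smul hv1]
  have e0 : ∀ t : ℝ, gaussianPDFReal 0 v.toNNReal t •
      (cexp (z * t) * (Real.exp (-(q * t ^ 2 / 2)) : ℂ))
      = (((Real.sqrt (1 + v * q))⁻¹ : ℝ) : ℂ) *
        (gaussianPDFReal 0 (v / (1 + v * q)).toNNReal t • cexp (z * t)) := by
    intro t
    have := pdf_id hv hq t
    rw [Complex.real_smul, Complex.real_smul]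
    calc _ = ((gaussianPDFReal 0 v.toNNReal t * Real.exp (-(q * t ^ 2 / 2)) : ℝ) : ℂ)
          * cexp (z * t) := by push_cast; ring
      _ = _ := by rw [this]; push_cast; ring
  simp only [e0]
  rw [integral_const_mul, ← integral_gaussianReal_eq_integral_smul hv2]
  congr 1
  have h := complexMGF_id_gaussianReal (μ := 0) (v := (v / (1 + v * q)).toNNReal) z
  unfold complexMGF at h
  simp only [id] at h
  rw [h]
  congr 1
  rw [Real.coe_toNNReal (v / (1 + v * q)) h6.le]
  simp only [ofReal_zero, mul_zero, zero_add]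
  have h3 : (1 + (v : ℂ) * q) ≠ 0 := by
    have : ((1 + v * q : ℝ) : ℂ) ≠ 0 := by exact_mod_cast h1.ne'
    simpa using this
  have h4 : (v : ℂ) ≠ 0 := by exact_mod_cast hv.ne'
  have h5 : ((q : ℂ) + 1 / v) ≠ 0 := by
    have e : ((q : ℂ) + 1 / v) = (1 + (v : ℂ) * q) / v := by field_simp; ring
    rw [e]
    exact div_ne_zero h3 h4
  have e : ((q : ℂ) + 1 / v) = (1 + (v : ℂ) * q) / v := by field_simp; ring
  rw [e]
  push_cast
  field_simp


/-- the Gaussian weight of one shell -/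
noncomputable def w0 (b q t : ℝ) : ℝ := Real.exp (-b * t) * Real.exp (-(q * t ^ 2 / 2))

/-- its total mass -/
noncomputable def Zg (v b q : ℝ) : ℝ :=
  (Real.sqrt (1 + v * q))⁻¹ * Real.exp (b ^ 2 / (2 * (q + 1 / v)))

theorem w0_pos (b q t : ℝ) : 0 < w0 b q t := mul_pos (Real.exp_pos _) (Real.exp_pos _)

theorem w0_meas (b q : ℝ) : Measurable (w0 b q) := by
  unfold w0
  fun_prop

theorem w0_int {v : ℝ} {b q : ℝ} (hq : 0 ≤ q) : Integrable (w0 b q) (gam v) := by
  refine (integrable_exp_mul_gaussianReal (-b)).mono' (w0_meas b q).aestronglyMeasurable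
    (Filter.Eventually.of_forall fun t => ?_)
  rw [Real.norm_eq_abs, abs_of_pos (w0_pos b q t)]
  unfold w0
  have h1 : Real.exp (-(q * t ^ 2 / 2)) ≤ 1 := Real.exp_le_one_iff.2 (by
    have : 0 ≤ q * t ^ 2 / 2 := by positivity
    linarith)
  exact mul_le_of_le_one_right (Real.exp_pos _).le h1

theorem Zg_pos {v q : ℝ} (hv : 0 < v) (hq : 0 ≤ q) (b : ℝ) : 0 < Zg v b q := by
  unfold Zg
  have : 0 < Real.sqrt (1 + v * q) := Real.sqrt_pos.2 (by positivity)
  positivity

theorem gauss_phase {v q : ℝ} (hv : 0 < v) (hq : 0 ≤ q) (b y : ℝ) :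
    ‖∫ t, cexp ((y * t : ℝ) * I) * (w0 b q t : ℂ) ∂(gam v)‖
      = Zg v b q * Real.exp (-(y ^ 2 / (2 * (q + 1 / v)))) := by
  have h := gauss_mgf hv hq (-(b : ℂ) + y * I)
  have e1 : (fun t : ℝ => cexp ((y * t : ℝ) * I) * (w0 b q t : ℂ))
      = fun t : ℝ => cexp ((-(b : ℂ) + y * I) * t) * (Real.exp (-(q * t ^ 2 / 2)) : ℂ) := by
    funext t
    unfold w0
    push_cast
    rw [← mul_assoc, ← Complex.exp_add]
    congr 2
    ring
  rw [e1, h, norm_mul, Complex.norm_real, Complex.norm_exp]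
  have h1 : 0 < Real.sqrt (1 + v * q) := Real.sqrt_pos.2 (by positivity)
  have h2 : ((-(b : ℂ) + y * I) ^ 2 / (2 * (q + 1 / v))).re
      = (b ^ 2 - y ^ 2) / (2 * (q + 1 / v)) := by
    have e2 : (2 * ((q : ℂ) + 1 / v)) = ((2 * (q + 1 / v) : ℝ) : ℂ) := by push_cast; ring
    rw [e2, Complex.div_ofReal_re]
    congr 1
    rw [sq, Complex.mul_re]
    simp
    ring
  rw [h2, Real.norm_eq_abs, abs_of_pos (inv_pos.2 h1)]
  unfold Zg
  rw [mul_assoc, ← Real.exp_add]
  congr 2
  ring

theorem w0_integral {v q : ℝ} (hv : 0 < v) (hq : 0 ≤ q) (b : ℝ) :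
    ∫ t, w0 b q t ∂(gam v) = Zg v b q := by
  have h := gauss_phase hv hq b 0
  have e : (fun t : ℝ => cexp ((0 * t : ℝ) * I) * (w0 b q t : ℂ)) = fun t => (w0 b q t : ℂ) := by
    funext t
    simp
  rw [e, integral_complex_ofReal, Complex.norm_real, Real.norm_eq_abs] at h
  have h2 : 0 ≤ ∫ t, w0 b q t ∂(gam v) := integral_nonneg fun t => (w0_pos b q t).le
  rw [abs_of_nonneg h2] at h
  simpa using h

theorem tail {v q b B T : ℝ} (hv : 0 < v) (hq : 0 ≤ q) (hb : |b| ≤ B) (hT : B * v ≤ T) :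
    ∫ t in (Set.Icc (-T) T)ᶜ, w0 b q t ∂(gam v)
      ≤ 2 * Real.exp (-((T - B * v) ^ 2 / (2 * v))) * Zg v b q := by
  set r := (T - B * v) / v with hr
  have hr0 : 0 ≤ r := div_nonneg (by linarith) hv.le
  have hB : 0 ≤ B := (abs_nonneg b).trans hb
  have hp : 0 < q + 1 / v := by positivity
  have hpv : 1 / (q + 1 / v) ≤ v := by
    rw [div_le_iff₀ hp]
    have : v * (q + 1 / v) = v * q + 1 := by field_simp
    rw [this]
    have : 0 ≤ v * q := by positivity
    linarith
  have hint : ∀ c : ℝ, Integrable (w0 c q) (gam v) := fun c => w0_int hq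
  have h1 : ∫ t in (Set.Icc (-T) T)ᶜ, w0 b q t ∂(gam v)
      ≤ ∫ t, Real.exp (-(r * T)) * (w0 (b - r) q t + w0 (b + r) q t) ∂(gam v) := by
    rw [← integral_indicator measurableSet_Icc.compl]
    refine integral_mono ((hint b).indicator measurableSet_Icc.compl)
      (((hint _).add (hint _)).const_mul _) fun t => ?_
    by_cases ht : t ∈ (Set.Icc (-T) T)ᶜ
    · rw [Set.indicator_of_mem ht]
      have hcase : t < -T ∨ T < t := by
        by_contra hcon
        push Not at hcon
        exact ht ⟨hcon.1, hcon.2⟩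
      have e1 : Real.exp (-(r * T)) * (w0 (b - r) q t + w0 (b + r) q t)
          = w0 b q t * (Real.exp (r * (t - T)) + Real.exp (r * (-t - T))) := by
        unfold w0
        have : Real.exp (-(b - r) * t) = Real.exp (-b * t) * Real.exp (r * t) := by
          rw [← Real.exp_add]; congr 1; ring
        have h3 : Real.exp (-(b + r) * t) = Real.exp (-b * t) * Real.exp (-(r * t)) := by
          rw [← Real.exp_add]; congr 1; ring
        have h4 : Real.exp (r * (t - T)) = Real.exp (r * t) * Real.exp (-(r * T)) := by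
          rw [← Real.exp_add]; congr 1; ring
        have h5 : Real.exp (r * (-t - T)) = Real.exp (-(r * t)) * Real.exp (-(r * T)) := by
          rw [← Real.exp_add]; congr 1; ring
        rw [this, h3, h4, h5]
        ring
      simp only [] at *
      rw [e1]
      refine le_mul_of_one_le_right (w0_pos b q t).le ?_
      rcases hcase with h | h
      · have : 1 ≤ Real.exp (r * (-t - T)) := Real.one_le_exp (mul_nonneg hr0 (by linarith))
        have h2 := Real.exp_pos (r * (t - T))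
        linarith
      · have : 1 ≤ Real.exp (r * (t - T)) := Real.one_le_exp (mul_nonneg hr0 (by linarith))
        have h2 := Real.exp_pos (r * (-t - T))
        linarith
    · rw [Set.indicator_of_notMem ht]
      have := w0_pos (b - r) q t
      have := w0_pos (b + r) q t
      positivity
  refine h1.trans ?_
  rw [integral_const_mul, integral_add (hint _) (hint _), w0_integral hv hq, w0_integral hv hq]
  have key : ∀ σ : ℝ, |σ| = 1 → Real.exp (-(r * T)) * Zg v (b + σ * r) q
      ≤ Real.exp (-((T - B * v) ^ 2 / (2 * v))) * Zg v b q := by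
    intro σ hσ
    unfold Zg
    have h2 : 0 < Real.sqrt (1 + v * q) := Real.sqrt_pos.2 (by positivity)
    have h3 : Real.exp (-(r * T)) * Real.exp ((b + σ * r) ^ 2 / (2 * (q + 1 / v)))
        ≤ Real.exp (-((T - B * v) ^ 2 / (2 * v))) * Real.exp (b ^ 2 / (2 * (q + 1 / v))) := by
      rw [← Real.exp_add, ← Real.exp_add]
      refine Real.exp_le_exp.2 ?_
      have hσ2 : σ ^ 2 = 1 := by rw [← sq_abs, hσ]; norm_num
      have e1 : (b + σ * r) ^ 2 / (2 * (q + 1 / v)) - b ^ 2 / (2 * (q + 1 / v))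
          = (2 * (σ * b) * r + r ^ 2) / 2 * (1 / (q + 1 / v)) := by
        have : (b + σ * r) ^ 2 = b ^ 2 + 2 * (σ * b) * r + σ ^ 2 * r ^ 2 := by ring
        rw [this, hσ2]
        field_simp
        ring
      have hσb : σ * b ≤ B := by
        calc σ * b ≤ |σ * b| := le_abs_self _
          _ = |b| := by rw [abs_mul, hσ, one_mul]
          _ ≤ B := hb
      have e2 : (2 * (σ * b) * r + r ^ 2) / 2 * (1 / (q + 1 / v)) ≤ (2 * B * r + r ^ 2) / 2 * v := by
        have h5 : (2 * (σ * b) * r + r ^ 2) / 2 ≤ (2 * B * r + r ^ 2) / 2 := by nlinarith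
        have h6 : 0 ≤ (2 * B * r + r ^ 2) / 2 := by positivity
        have h7 : 0 ≤ 1 / (q + 1 / v) := by positivity
        calc _ ≤ (2 * B * r + r ^ 2) / 2 * (1 / (q + 1 / v)) := mul_le_mul_of_nonneg_right h5 h7
          _ ≤ _ := mul_le_mul_of_nonneg_left hpv h6
      have e3 : (2 * B * r + r ^ 2) / 2 * v - r * T = -((T - B * v) ^ 2 / (2 * v)) := by
        rw [hr]
        field_simp
        ring
      linarith
    calc _ = (Real.sqrt (1 + v * q))⁻¹ * (Real.exp (-(r * T))
          * Real.exp ((b + σ * r) ^ 2 / (2 * (q + 1 / v)))) := by ring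
      _ ≤ (Real.sqrt (1 + v * q))⁻¹ * (Real.exp (-((T - B * v) ^ 2 / (2 * v)))
          * Real.exp (b ^ 2 / (2 * (q + 1 / v)))) := mul_le_mul_of_nonneg_left h3 (by positivity)
      _ = _ := by ring
  have k1 := key 1 (by simp)
  have k2 := key (-1) (by simp)
  rw [one_mul] at k1
  have e4 : b + -1 * r = b - r := by ring
  rw [e4] at k2
  linarith

end Vale.Agent.P159.TM.H783
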