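import Vale.Agent.P159.TM.H215.Final
import Vale.Agent.P159.TM.H556.Num

/-!
[783] P159, ASMC: the sizes of the two constants of H215 and of the locality error, in the letters
of H556.
-/

open Vale.Agent.P159.TM.H859 (Mn two_le_Mn le_Mn Mn_le)
open Vale.Agent.P159.TM.SpecC (Kn)
open Vale.Agent.P159.TM.H215 (tcA eLoc)
open Vale.Agent.P159.TM.H556 (poly_exp sizes)

namespace Vale.Agent.P159.TM.H783

theorem log_le_of {z n y : ℝ} {c : ℝ} (hz : 0 < z) (hy : 0 < y) (hn : n = Real.log (1 / y))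
    (hzy : z ≤ Real.exp c * (1 / y)) : Real.log z ≤ c + n := by
  have h1 := Real.log_le_log hz hzy
  rw [Real.log_mul (Real.exp_pos _).ne' (by positivity), Real.log_exp, ← hn] at h1
  exact h1

theorem exp_two_ge : (5 : ℝ) ≤ Real.exp 2 := by
  have h := Real.sum_le_exp_of_nonneg (x := 2) (by norm_num) 4
  simp only [Finset.sum_range_succ, Finset.sum_range_zero, Nat.factorial] at h
  norm_num at h
  linarith

theorem exp_one_ge : (5 / 2 : ℝ) ≤ Real.exp 1 := by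
  have h := Real.sum_le_exp_of_nonneg (x := 1) (by norm_num) 3
  simp only [Finset.sum_range_succ, Finset.sum_range_zero, Nat.factorial] at h
  norm_num at h
  linarith

theorem tc1 {ρ y n X : ℝ} (hρ : 0 < ρ) (hy : 0 < y) (hn : n = Real.log (1 / y)) (hn1 : 1 ≤ n)
    (hX1 : 1 ≤ X) : tcA ρ (y * X ^ 2 / 2) ≤ (4 * Real.exp 2 / ρ) * n ^ 6 * (X ^ 2 * y) := by
  have hlog : Real.log (5 / (2 * (y * X ^ 2 / 2))) ≤ 2 + n := by
    refine log_le_of (by positivity) hy hn ?_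
    have h1 : 5 / (2 * (y * X ^ 2 / 2)) = 5 * (1 / y) * (1 / X ^ 2) := by
      field_simp
    rw [h1]
    have h2 : 1 / X ^ 2 ≤ 1 := by
      rw [div_le_one (by positivity)]
      exact one_le_pow₀ hX1
    calc 5 * (1 / y) * (1 / X ^ 2) ≤ 5 * (1 / y) * 1 :=
          mul_le_mul_of_nonneg_left h2 (by positivity)
      _ ≤ Real.exp 2 * (1 / y) := by
          rw [mul_one]
          exact mul_le_mul_of_nonneg_right exp_two_ge (by positivity)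
  have h3 : 1 + Real.log (5 / (2 * (y * X ^ 2 / 2))) ≤ 4 * n := by linarith
  have hn16 : n ≤ n ^ 6 := le_self_pow₀ hn1 (by norm_num)
  unfold tcA
  calc Real.exp 2 * (1 + Real.log (5 / (2 * (y * X ^ 2 / 2)))) * (2 * (y * X ^ 2 / 2)) / ρ
      ≤ Real.exp 2 * (4 * n) * (2 * (y * X ^ 2 / 2)) / ρ := by
        refine div_le_div_of_nonneg_right ?_ hρ.le
        exact mul_le_mul_of_nonneg_right (mul_le_mul_of_nonneg_left h3 (by positivity))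
          (by positivity)
    _ = (4 * Real.exp 2 / ρ) * n * (X ^ 2 * y) := by ring
    _ ≤ (4 * Real.exp 2 / ρ) * n ^ 6 * (X ^ 2 * y) := by
        refine mul_le_mul_of_nonneg_right ?_ (by positivity)
        exact mul_le_mul_of_nonneg_left hn16 (by positivity)

theorem tc2 {ρ y n K k : ℝ} (hρ : 0 < ρ) (hy : 0 < y) (hn : n = Real.log (1 / y)) (hn1 : 1 ≤ n)
    (hK1 : 1 ≤ K) (hK : K ≤ (k + 2) * n) :
    tcA ρ (K ^ 2 * y) ≤ (6 * Real.exp 2 * (k + 2) ^ 2 / ρ) * n ^ 6 * y := by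
  have hlog : Real.log (5 / (2 * (K ^ 2 * y))) ≤ 1 + n := by
    refine log_le_of (by positivity) hy hn ?_
    have h1 : 5 / (2 * (K ^ 2 * y)) = 5 / 2 * (1 / y) * (1 / K ^ 2) := by
      field_simp
    rw [h1]
    have h2 : 1 / K ^ 2 ≤ 1 := by
      rw [div_le_one (by positivity)]
      exact one_le_pow₀ hK1
    calc 5 / 2 * (1 / y) * (1 / K ^ 2) ≤ 5 / 2 * (1 / y) * 1 :=
          mul_le_mul_of_nonneg_left h2 (by positivity)
      _ ≤ Real.exp 1 * (1 / y) := by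
          rw [mul_one]
          exact mul_le_mul_of_nonneg_right exp_one_ge (by positivity)
  have h3 : 1 + Real.log (5 / (2 * (K ^ 2 * y))) ≤ 3 * n := by linarith
  have hn36 : n ^ 3 ≤ n ^ 6 := pow_le_pow_right₀ hn1 (by norm_num)
  unfold tcA
  calc Real.exp 2 * (1 + Real.log (5 / (2 * (K ^ 2 * y)))) * (2 * (K ^ 2 * y)) / ρ
      ≤ Real.exp 2 * (3 * n) * (2 * (K ^ 2 * y)) / ρ := by
        refine div_le_div_of_nonneg_right ?_ hρ.le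
        exact mul_le_mul_of_nonneg_right (mul_le_mul_of_nonneg_left h3 (by positivity))
          (by positivity)
    _ = (6 * Real.exp 2 / ρ) * n * y * K ^ 2 := by ring
    _ ≤ (6 * Real.exp 2 / ρ) * n * y * ((k + 2) * n) ^ 2 :=
        mul_le_mul_of_nonneg_left (pow_le_pow_left₀ (by linarith) hK 2) (by positivity)
    _ = (6 * Real.exp 2 * (k + 2) ^ 2 / ρ) * n ^ 3 * y := by ring
    _ ≤ _ := by
        refine mul_le_mul_of_nonneg_right ?_ hy.le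
        exact mul_le_mul_of_nonneg_left hn36 (by positivity)

theorem eLoc_eq {Cb cb R : ℝ} {K M : ℕ} (hR : R = ((K : ℝ) - 9) / 6) :
    eLoc K M Cb cb R = (Cb * Real.exp (7 / 2 * cb)) * ((K : ℝ) * M) ^ 4 *
      Real.exp (-(cb / 6 * K)) := by
  unfold eLoc
  have h1 : ((K * M : ℕ) : ℝ) = (K : ℝ) * M := by push_cast; ring
  have h2 : Real.exp (-(cb * (R - 2))) = Real.exp (7 / 2 * cb) * Real.exp (-(cb / 6 * K)) := by
    rw [← Real.exp_add, hR]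
    congr 1
    ring
  rw [h1, h2]
  ring

/-- the polynomial bounds -/
theorem poly_part {B D X K k n y : ℝ} {p : ℕ} (hB : 0 ≤ B) (hD0 : 0 ≤ D) (hn1 : 1 ≤ n)
    (hy : 0 < y) (hX0 : 0 ≤ X) (hK0 : 0 ≤ K) (hK : K ≤ (k + 2) * n)
    (hX : X ≤ D * n ^ (p + 1))
    (hP : ((B + 1) * D ^ 5 + D ^ 2 + 2 * (k + 2) ^ 2) * n ^ (5 * (p + 1)) * y ≤ 1) :
    (B + 1) * X ^ 5 * y ≤ 1 ∧ y * X ^ 2 ≤ 1 ∧ 2 * K ^ 2 * y ≤ 1 := by
  have hnp : ∀ q : ℕ, q ≤ 5 * (p + 1) → n ^ q ≤ n ^ (5 * (p + 1)) := fun q hq =>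
    pow_le_pow_right₀ hn1 hq
  have hX5 : X ^ 5 ≤ D ^ 5 * n ^ (5 * (p + 1)) := by
    calc X ^ 5 ≤ (D * n ^ (p + 1)) ^ 5 := pow_le_pow_left₀ hX0 hX 5
      _ = _ := by rw [mul_pow, ← pow_mul, mul_comm (p + 1) 5]
  have hX2 : X ^ 2 ≤ D ^ 2 * n ^ (5 * (p + 1)) := by
    calc X ^ 2 ≤ (D * n ^ (p + 1)) ^ 2 := pow_le_pow_left₀ hX0 hX 2
      _ = D ^ 2 * n ^ (2 * (p + 1)) := by rw [mul_pow, ← pow_mul, mul_comm (p + 1) 2]
      _ ≤ _ := mul_le_mul_of_nonneg_left (hnp _ (by omega)) (by positivity)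
  have hK2 : K ^ 2 ≤ (k + 2) ^ 2 * n ^ (5 * (p + 1)) := by
    calc K ^ 2 ≤ ((k + 2) * n) ^ 2 := pow_le_pow_left₀ hK0 hK 2
      _ = (k + 2) ^ 2 * n ^ 2 := by rw [mul_pow]
      _ ≤ _ := mul_le_mul_of_nonneg_left (hnp _ (by omega)) (by positivity)
  set NN : ℝ := n ^ (5 * (p + 1)) with hNN
  have hNN0 : 0 ≤ NN := by positivity
  have a1 : 0 ≤ (B + 1) * D ^ 5 * NN := by positivity
  have a2 : 0 ≤ D ^ 2 * NN := by positivity
  have a3 : 0 ≤ 2 * (k + 2) ^ 2 * NN := by positivity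
  refine ⟨le_trans (mul_le_mul_of_nonneg_right ?_ hy.le) hP, ?_,
    le_trans (mul_le_mul_of_nonneg_right ?_ hy.le) hP⟩
  · have h1 : (B + 1) * X ^ 5 ≤ (B + 1) * (D ^ 5 * NN) :=
      mul_le_mul_of_nonneg_left hX5 (by positivity)
    linarith
  · rw [mul_comm y]
    refine le_trans (mul_le_mul_of_nonneg_right ?_ hy.le) hP
    linarith
  · linarith

/-- the locality error is at most `y²/6` -/
theorem loc_small {B X y E : ℝ} (hB : 0 ≤ B) (hX0 : 0 ≤ X) (hy : 0 < y) (hE3 : E ≤ y ^ 3)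
    (q1 : (6 * B + 1) * X ^ 5 * y ≤ 1) : B * X ^ 5 * E ≤ y ^ 2 / 6 := by
  have hw0 : 0 ≤ B * X ^ 5 := by positivity
  calc B * X ^ 5 * E ≤ B * X ^ 5 * y ^ 3 := mul_le_mul_of_nonneg_left hE3 hw0
    _ = (6 * B * X ^ 5 * y) * (y ^ 2 / 6) := by ring
    _ ≤ 1 * (y ^ 2 / 6) := by
        refine mul_le_mul_of_nonneg_right (le_trans ?_ q1) (by positivity)
        have : 0 ≤ X ^ 5 * y := by positivity
        linarith
    _ = y ^ 2 / 6 := one_mul _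

/-- the condition on `δ = K² y` -/
theorem cond_c {L₀ A R y : ℝ} {K M : ℕ} {E : ℝ} (hL₀ : 0 < L₀) (hA0 : 0 ≤ A) (hy : 0 < y)
    (hy1 : y ≤ 1) (hE0 : 0 < E) (hK21 : (21 : ℝ) ≤ K) (hM2 : (2 : ℝ) ≤ M)
    (hR : R = ((K : ℝ) - 9) / 6)
    (hXE : (L₀ * A) * ((K : ℝ) * M) ^ 5 * E ≤ y ^ 2 / 6) :
    3 * (L₀ * (R + 5 / 2) * (A * ((K : ℝ) * M) ^ 4 * E))
      + y * ((K : ℝ) * M) ^ 2 / (2 * (M : ℝ) ^ 2) ≤ (K : ℝ) ^ 2 * y := by
  have hK0 : (0 : ℝ) < K := by linarith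
  have hM0 : (0 : ℝ) < M := by linarith
  have h1 : y * ((K : ℝ) * M) ^ 2 / (2 * (M : ℝ) ^ 2) = (K : ℝ) ^ 2 * y / 2 := by
    field_simp
  rw [h1]
  set X : ℝ := (K : ℝ) * M with hX
  have h2 : R + 5 / 2 ≤ X := by
    have : (K : ℝ) * 2 ≤ X := mul_le_mul_of_nonneg_left hM2 hK0.le
    rw [hR]
    linarith
  have hX0 : 0 < X := by positivity
  have h3 : 0 ≤ A * X ^ 4 * E := by positivity
  have h4 : L₀ * (R + 5 / 2) * (A * X ^ 4 * E) ≤ L₀ * A * X ^ 5 * E := by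
    calc L₀ * (R + 5 / 2) * (A * X ^ 4 * E) ≤ L₀ * X * (A * X ^ 4 * E) :=
          mul_le_mul_of_nonneg_right (mul_le_mul_of_nonneg_left h2 hL₀.le) h3
      _ = L₀ * A * X ^ 5 * E := by ring
  have hK2 : (1 : ℝ) ≤ (K : ℝ) ^ 2 := one_le_pow₀ (by linarith)
  have h5 : 1 * y ≤ (K : ℝ) ^ 2 * y := mul_le_mul_of_nonneg_right hK2 hy.le
  have hy2y : y ^ 2 ≤ y := by
    rw [sq]
    exact mul_le_of_le_one_left hy.le hy1
  linarith

/-- the sizes -/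
theorem size_num {L₀ Cb cb ρ : ℝ} (hL₀ : 0 < L₀) (hCb : 0 ≤ Cb) (hcb : 0 < cb) (hρ : 0 < ρ) :
    ∃ k0 : ℕ, ∀ k, k0 ≤ k → ∃ C : ℝ, 0 ≤ C ∧ ∀ (X₀ : ℝ) (K₀ p : ℕ), 2 ≤ p →
      ∃ ys : ℝ, 0 < ys ∧ ys < 1 ∧ ∀ y : ℝ, 0 < y → y ≤ ys → ∀ K M : ℕ, K = Kn k y → M = Mn p y →
        ∀ n R : ℝ, n = Real.log (1 / y) → R = ((K : ℝ) - 9) / 6 →
          K₀ ≤ K ∧ X₀ * K ≤ M ∧ y * ((K : ℝ) * M) ^ 2 ≤ 1 ∧ (K : ℝ) ^ 2 * y ≤ 1 / 2 ∧
          2 ≤ R ∧ 6 * R + 8 < K ∧ 2 * (R + 2) ≤ K ∧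
          3 * (L₀ * (R + 5 / 2) * eLoc K M Cb cb R)
            + y * ((K : ℝ) * M) ^ 2 / (2 * (M : ℝ) ^ 2) ≤ (K : ℝ) ^ 2 * y ∧
          tcA ρ (y * ((K : ℝ) * M) ^ 2 / 2) ≤ C * n ^ 6 * ((K : ℝ) * M) ^ 2 * y ∧
          tcA ρ ((K : ℝ) ^ 2 * y) + L₀ * K * M * eLoc K M Cb cb R ≤ C * n ^ 6 * y ∧
          L₀ * K * M * eLoc K M Cb cb R
            ≤ C * n ^ 6 * ((K : ℝ) * M) ^ 6 * Real.exp (-(cb / 6 * K)) := by
  refine ⟨⌈18 / cb⌉₊ + 1, fun k hk => ?_⟩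
  have hk1 : (1 : ℝ) ≤ k := by exact_mod_cast (le_trans (by omega) hk)
  have hkcb : 18 ≤ cb * k := by
    have h1 : 18 / cb ≤ (⌈18 / cb⌉₊ : ℝ) := Nat.le_ceil _
    have h2 : ((⌈18 / cb⌉₊ + 1 : ℕ) : ℝ) ≤ k := by exact_mod_cast hk
    push_cast at h2
    have h3 : 18 / cb ≤ k := by linarith
    rw [div_le_iff₀ hcb] at h3
    linarith
  set A : ℝ := Cb * Real.exp (7 / 2 * cb) with hA
  have hA0 : 0 ≤ A := by positivity
  have hLA : 0 ≤ L₀ * A := by positivity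
  set c1 : ℝ := 4 * Real.exp 2 / ρ with hc1
  set c2 : ℝ := 6 * Real.exp 2 * ((k : ℝ) + 2) ^ 2 / ρ with hc2
  have hc10 : 0 ≤ c1 := by positivity
  have hc20 : 0 ≤ c2 := by positivity
  refine ⟨c1 + (c2 + 1) + L₀ * A, by positivity, fun X₀ K₀ p hp => ?_⟩
  obtain ⟨n1, hn1, H1⟩ := poly_exp ((6 * (L₀ * A) + 1) * (3 * ((k : ℝ) + 2)) ^ 5
    + (3 * ((k : ℝ) + 2)) ^ 2 + 2 * ((k : ℝ) + 2) ^ 2) (5 * (p + 1)) (ε := 1) one_pos
  have hX₀ := abs_nonneg X₀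
  have hK₀0 : (0 : ℝ) ≤ K₀ := by positivity
  have hxk : 0 ≤ |X₀| * ((k : ℝ) + 2) := by positivity
  refine ⟨Real.exp (-(n1 + K₀ + |X₀| * (k + 2) + 21)), Real.exp_pos _, ?_,
    fun y hy hys K M hK hM n R hn hR => ?_⟩
  · rw [Real.exp_lt_one_iff]
    linarith
  have hn0n : n1 + K₀ + |X₀| * (k + 2) + 21 ≤ n := by
    have h1 := Real.log_le_log hy hys
    rw [Real.log_exp] at h1
    rw [hn, one_div, Real.log_inv]
    linarith
  have hn1' : 1 ≤ n := by linarith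
  have hexpn : Real.exp (-n) = y := by
    rw [hn, one_div, Real.log_inv, neg_neg, Real.exp_log hy]
  have hy1 : y ≤ 1 := by
    rw [← hexpn, Real.exp_le_one_iff]
    linarith
  obtain ⟨s1, s2, s3, s4, s5, s6, s7⟩ := sizes (K := (K : ℝ)) (M := (M : ℝ)) (p := p) hk1 hy hy1
    hn hn1' (by rw [hK]) (by rw [hM])
  have hK0 : (0 : ℝ) < K := by linarith
  have hM0 : (0 : ℝ) < M := by linarith
  have hX1 : 1 ≤ (K : ℝ) * M := by
    calc (1 : ℝ) = 1 * 1 := by norm_num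
      _ ≤ K * M := mul_le_mul s4 (by linarith) (by norm_num) hK0.le
  have hK21 : (21 : ℝ) ≤ K := by linarith
  have hE0 : 0 < Real.exp (-(cb / 6 * K)) := Real.exp_pos _
  have hE3 : Real.exp (-(cb / 6 * K)) ≤ y ^ 3 := by
    have : y ^ 3 = Real.exp (-(3 * n)) := by
      rw [← hexpn, ← Real.exp_nat_mul]
      congr 1
      push_cast
      ring
    rw [this]
    refine Real.exp_le_exp.2 (neg_le_neg ?_)
    have h1 : cb / 6 * (k * n) ≤ cb / 6 * K := mul_le_mul_of_nonneg_left s1 (by positivity)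
    have h2 : 18 * n ≤ cb * k * n := mul_le_mul_of_nonneg_right hkcb (by linarith)
    linarith
  have hP := H1 n (by linarith)
  rw [hexpn] at hP
  obtain ⟨q1, q2, q3⟩ := poly_part (B := 6 * (L₀ * A)) (X := (K : ℝ) * M) (K := (K : ℝ))
    (k := (k : ℝ)) (D := 3 * ((k : ℝ) + 2)) (by positivity) (by positivity) hn1' hy
    (by linarith) hK0.le s2 s7 hP
  have hXE := loc_small (B := L₀ * A) hLA (by linarith : 0 ≤ (K : ℝ) * M) hy hE3 q1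
  have hn6 : 1 ≤ n ^ 6 := one_le_pow₀ hn1'
  have heLoc := eLoc_eq (Cb := Cb) (cb := cb) (M := M) hR
  rw [← hA] at heLoc
  have hw : L₀ * K * M * eLoc K M Cb cb R =
      L₀ * A * ((K : ℝ) * M) ^ 5 * Real.exp (-(cb / 6 * K)) := by
    rw [heLoc]
    ring
  refine ⟨?_, ?_, q2, by linarith, ?_, ?_, ?_, ?_, ?_, ?_, ?_⟩
  · have : (K₀ : ℝ) ≤ K := by linarith
    exact_mod_cast this
  · have h1 : X₀ * K ≤ |X₀| * K := mul_le_mul_of_nonneg_right (le_abs_self _) hK0.le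
    have h2 : |X₀| * K ≤ |X₀| * (((k : ℝ) + 2) * n) := mul_le_mul_of_nonneg_left s2 hX₀
    have h3 : |X₀| * (((k : ℝ) + 2) * n) ≤ n * n := by
      rw [← mul_assoc]
      exact mul_le_mul_of_nonneg_right (by linarith) (by linarith)
    have h4 : n * n ≤ n ^ p := by
      rw [← sq]
      exact pow_le_pow_right₀ hn1' hp
    linarith
  · rw [hR, le_div_iff₀ (by norm_num)]
    linarith
  · rw [hR]
    linarith
  · rw [hR]
    linarith
  · rw [heLoc]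
    exact cond_c hL₀ hA0 hy hy1 hE0 hK21 s6 hR hXE
  · refine (tc1 hρ hy hn hn1' hX1).trans ?_
    have h6 : 0 ≤ (c2 + 1 + L₀ * A) * (n ^ 6 * (((K : ℝ) * M) ^ 2 * y)) := by positivity
    rw [← hc1]
    linarith
  · rw [hw]
    have h4 := tc2 (k := (k : ℝ)) hρ hy hn hn1' s4 s2
    rw [← hc2] at h4
    have hy2y : y ^ 2 ≤ y := by
      rw [sq]
      exact mul_le_of_le_one_left hy.le hy1
    have h5 : 1 * y ≤ n ^ 6 * y := mul_le_mul_of_nonneg_right hn6 hy.le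
    have h6 : 0 ≤ (c1 + L₀ * A) * (n ^ 6 * y) := by positivity
    linarith
  · rw [hw]
    have h1 : ((K : ℝ) * M) ^ 5 ≤ ((K : ℝ) * M) ^ 6 := pow_le_pow_right₀ hX1 (by norm_num)
    have h2 : ((K : ℝ) * M) ^ 5 ≤ n ^ 6 * ((K : ℝ) * M) ^ 6 := by
      calc ((K : ℝ) * M) ^ 5 = 1 * ((K : ℝ) * M) ^ 5 := (one_mul _).symm
        _ ≤ n ^ 6 * ((K : ℝ) * M) ^ 6 := mul_le_mul hn6 h1 (by positivity) (by positivity)
    have h3 := mul_le_mul_of_nonneg_right (mul_le_mul_of_nonneg_left h2 hLA) hE0.le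
    have h4 : 0 ≤ (c1 + (c2 + 1)) * (n ^ 6 * ((K : ℝ) * M) ^ 6 * Real.exp (-(cb / 6 * K))) := by
      positivity
    linarith

end Vale.Agent.P159.TM.H783
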