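import Vale.Agent.P159.TM.H783.Core
import Vale.Agent.P159.TM.H783.Gauss

/-!
[783] P159, part C5 of 617 #12802: one shell with the truncated Gaussian kernel.
-/

open MeasureTheory ProbabilityTheory Complex

namespace Vale.Agent.P159.TM.H783

/-- the truncated Gaussian kernel -/
noncomputable def kap (v T : ℝ) : Measure ℝ := (gam v)[|Set.Icc (-T) T]

/-- mass of the truncation window -/
noncomputable def cS (v T : ℝ) : ℝ := (gam v).real (Set.Icc (-T) T)

theorem gam_ne {v T : ℝ} (hv : 0 < v) (hT : 0 < T) : gam v (Set.Icc (-T) T) ≠ 0 := by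
  intro h
  have hv1 : v.toNNReal ≠ 0 := by simpa using hv
  have h1 := gaussianReal_absolutelyContinuous' 0 hv1 h
  rw [Real.volume_Icc] at h1
  have : (0 : ℝ) < T - -T := by linarith
  have h2 := ENNReal.ofReal_pos.2 this
  exact h2.ne' h1

theorem cS_pos {v T : ℝ} (hv : 0 < v) (hT : 0 < T) : 0 < cS v T :=
  ENNReal.toReal_pos (gam_ne hv hT) (measure_ne_top _ _)

theorem kap_prob {v T : ℝ} (hv : 0 < v) (hT : 0 < T) : IsProbabilityMeasure (kap v T) :=
  cond_isProbabilityMeasure (gam_ne hv hT)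

theorem kap_int {F' : Type*} [NormedAddCommGroup F'] [NormedSpace ℝ F'] (v T : ℝ) (f : ℝ → F') :
    ∫ t, f t ∂(kap v T) = (cS v T)⁻¹ • ∫ t in Set.Icc (-T) T, f t ∂(gam v) := by
  unfold kap cS
  rw [ProbabilityTheory.cond, integral_smul_measure, ENNReal.toReal_inv]
  rfl

theorem kap_supp {v T : ℝ} : ∀ᵐ t ∂(kap v T), |t| ≤ T := by
  have h1 : ∀ᵐ t ∂((gam v).restrict (Set.Icc (-T) T)), |t| ≤ T := by
    filter_upwards [ae_restrict_mem measurableSet_Icc] with t ht
    exact abs_le.2 ht
  unfold kap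
  rw [ProbabilityTheory.cond]
  exact Measure.ae_smul_measure h1 _

/-- the tail parameter -/
noncomputable def tauT (v B T : ℝ) : ℝ := 2 * Real.exp (-((T - B * v) ^ 2 / (2 * v)))

/-- the gain of one shell for moderate slopes -/
noncomputable def th0 (kk v qb B T η : ℝ) : ℝ :=
  Real.exp η * ((Real.exp (-(2 * Real.pi ^ 2 * kk / (qb + 1 / v))) + tauT v B T)
    / (1 - tauT v B T) + (Real.exp η - 1))

theorem small_slope {kk v q qb b B T η : ℝ} (hk : 0 ≤ kk) (hv : 0 < v) (hq : 0 ≤ q) (hqb : q ≤ qb) (hb : |b| ≤ B)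
    (hT0 : 0 < T) (hT : B * v ≤ T) (hτ : tauT v B T < 1) (hη : 0 ≤ η)
    {u : ℝ → ℝ} (hu : Measurable u) (hu1 : ∀ t, |t| ≤ T → |u t + b * t + q * t ^ 2 / 2| ≤ η)
    {m : ℝ} (hm : kk ≤ m ^ 2) :
    ‖∫ t, cexp ((2 * Real.pi * m * t : ℝ) * I) * (Real.exp (u t) : ℂ) ∂(kap v T)‖
      ≤ th0 kk v qb B T η * ∫ t, Real.exp (u t) ∂(kap v T) := by
  set S := Set.Icc (-T) T with hS
  set τ := tauT v B T with hτd
  have hτ0 : 0 < τ := by
    rw [hτd]
    unfold tauT
    positivity
  set Z := Zg v b q with hZ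
  have hZ0 : 0 < Z := Zg_pos hv hq b
  have hw0i : Integrable (w0 b q) (gam v) := w0_int hq
  have hSm : MeasurableSet S := measurableSet_Icc
  set A0 := ∫ t in S, w0 b q t ∂(gam v) with hA0
  have htail : ∫ t in Sᶜ, w0 b q t ∂(gam v) ≤ τ * Z := tail hv hq hb hT
  have htot : A0 + ∫ t in Sᶜ, w0 b q t ∂(gam v) = Z := by
    rw [hA0, integral_add_compl hSm hw0i, w0_integral hv hq]
  have hA0lb : (1 - τ) * Z ≤ A0 := by linarith
  have hA0pos : 0 < A0 := lt_of_lt_of_le (mul_pos (by linarith) hZ0) hA0lb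
  -- the phase
  have hphm : Measurable fun t : ℝ => cexp ((2 * Real.pi * m * t : ℝ) * I) := by
    have : Continuous fun t : ℝ => cexp ((2 * Real.pi * m * t : ℝ) * I) := by fun_prop
    exact this.measurable
  have hJi : Integrable (fun t => cexp ((2 * Real.pi * m * t : ℝ) * I) * (w0 b q t : ℂ)) (gam v) := by
    refine hw0i.mono' (hphm.mul (Complex.measurable_ofReal.comp (w0_meas b q))).aestronglyMeasurable
      (Filter.Eventually.of_forall fun t => ?_)
    rw [norm_mul, Complex.norm_exp_ofReal_mul_I, one_mul, Complex.norm_real, Real.norm_eq_abs,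
      abs_of_pos (w0_pos b q t)]
  have hJ0 : ‖∫ t in S, cexp ((2 * Real.pi * m * t : ℝ) * I) * (w0 b q t : ℂ) ∂(gam v)‖
      ≤ (Real.exp (-(2 * Real.pi ^ 2 * kk / (qb + 1 / v))) + τ) / (1 - τ) * A0 := by
    have h1 := integral_add_compl hSm hJi
    have h2 : ‖∫ t, cexp ((2 * Real.pi * m * t : ℝ) * I) * (w0 b q t : ℂ) ∂(gam v)‖
        ≤ Z * Real.exp (-(2 * Real.pi ^ 2 * kk / (qb + 1 / v))) := by
      have h3 := gauss_phase hv hq b (2 * Real.pi * m)
      rw [h3]
      refine mul_le_mul_of_nonneg_left (Real.exp_le_exp.2 (neg_le_neg ?_)) hZ0.le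
      have hp : 0 < q + 1 / v := by positivity
      have hpb : 0 < qb + 1 / v := by
        have : 0 < 1 / v := by positivity
        linarith
      have e1 : (2 * Real.pi * m) ^ 2 / (2 * (q + 1 / v)) = 2 * Real.pi ^ 2 * m ^ 2 / (q + 1 / v) := by
        field_simp
      rw [e1]
      apply div_le_div₀ (by positivity) _ hp (by linarith)
      exact mul_le_mul_of_nonneg_left hm (by positivity)
    have h4 : ‖∫ t in Sᶜ, cexp ((2 * Real.pi * m * t : ℝ) * I) * (w0 b q t : ℂ) ∂(gam v)‖ ≤ τ * Z := by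
      refine (norm_integral_le_integral_norm _).trans ?_
      refine le_trans (le_of_eq ?_) htail
      refine integral_congr_ae (Filter.Eventually.of_forall fun t => ?_)
      simp only []
      rw [norm_mul, Complex.norm_exp_ofReal_mul_I, one_mul, Complex.norm_real, Real.norm_eq_abs,
        abs_of_pos (w0_pos b q t)]
    have h5 : ∫ t in S, cexp ((2 * Real.pi * m * t : ℝ) * I) * (w0 b q t : ℂ) ∂(gam v)
        = ∫ t, cexp ((2 * Real.pi * m * t : ℝ) * I) * (w0 b q t : ℂ) ∂(gam v)
          - ∫ t in Sᶜ, cexp ((2 * Real.pi * m * t : ℝ) * I) * (w0 b q t : ℂ) ∂(gam v) := by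
      rw [← h1]; ring
    rw [h5]
    refine (norm_sub_le _ _).trans ((add_le_add h2 h4).trans ?_)
    have h6 : Z ≤ A0 / (1 - τ) := by
      rw [le_div_iff₀ (by linarith)]
      linarith
    have h7 : 0 < Real.exp (-(2 * Real.pi ^ 2 * kk / (qb + 1 / v))) := Real.exp_pos _
    calc Z * Real.exp (-(2 * Real.pi ^ 2 * kk / (qb + 1 / v))) + τ * Z
        = (Real.exp (-(2 * Real.pi ^ 2 * kk / (qb + 1 / v))) + τ) * Z := by ring
      _ ≤ (Real.exp (-(2 * Real.pi ^ 2 * kk / (qb + 1 / v))) + τ) * (A0 / (1 - τ)) :=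
          mul_le_mul_of_nonneg_left h6 (by positivity)
      _ = _ := by ring
  -- comparison of exp u and w0 on S
  have hcmp : ∀ t ∈ S, |Real.exp (u t) - w0 b q t| ≤ (Real.exp η - 1) * w0 b q t ∧
      Real.exp (-η) * w0 b q t ≤ Real.exp (u t) := by
    intro t ht
    have h1 := hu1 t (abs_le.2 ht)
    have h2 : Real.exp (u t) = w0 b q t * Real.exp (u t + b * t + q * t ^ 2 / 2) := by
      unfold w0
      rw [← Real.exp_add, ← Real.exp_add]
      congr 1
      ring
    constructor
    · rw [h2, ← mul_sub_one, abs_mul, abs_of_pos (w0_pos b q t), mul_comm]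
      exact mul_le_mul_of_nonneg_right (abs_exp_sub_one h1) (w0_pos b q t).le
    · rw [h2, mul_comm]
      refine mul_le_mul_of_nonneg_left (Real.exp_le_exp.2 ?_) (w0_pos b q t).le
      exact (neg_le_neg h1).trans (neg_abs_le _)
  have hum : Measurable fun t => Real.exp (u t) := Real.measurable_exp.comp hu
  have hui : IntegrableOn (fun t => Real.exp (u t)) S (gam v) := by
    refine (hw0i.integrableOn (s := S).const_mul (Real.exp η)).mono' hum.aestronglyMeasurable ?_
    filter_upwards [ae_restrict_mem hSm] with t ht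
    rw [Real.norm_eq_abs, abs_of_pos (Real.exp_pos _)]
    have := (abs_le.1 (hcmp t ht).1).2
    linarith
  have hui2 : IntegrableOn (fun t => cexp ((2 * Real.pi * m * t : ℝ) * I) * (Real.exp (u t) : ℂ)) S
      (gam v) := by
    refine hui.mono' (hphm.mul (Complex.measurable_ofReal.comp hum)).aestronglyMeasurable
      (Filter.Eventually.of_forall fun t => ?_)
    rw [norm_mul, Complex.norm_exp_ofReal_mul_I, one_mul, Complex.norm_real, Real.norm_eq_abs,
      abs_of_pos (Real.exp_pos _)]
  set A := ∫ t in S, Real.exp (u t) ∂(gam v) with hA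
  have hAlb : Real.exp (-η) * A0 ≤ A := by
    rw [hA0, ← integral_const_mul, hA]
    exact setIntegral_mono_on (hw0i.integrableOn.const_mul _) hui hSm fun t ht => (hcmp t ht).2
  have hA0A : A0 ≤ Real.exp η * A := by
    have : Real.exp η * Real.exp (-η) = 1 := by rw [← Real.exp_add]; simp
    calc A0 = Real.exp η * (Real.exp (-η) * A0) := by rw [← mul_assoc, this, one_mul]
      _ ≤ _ := mul_le_mul_of_nonneg_left hAlb (Real.exp_pos _).le
  have hJ : ‖∫ t in S, cexp ((2 * Real.pi * m * t : ℝ) * I) * (Real.exp (u t) : ℂ) ∂(gam v)‖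
      ≤ ((Real.exp (-(2 * Real.pi ^ 2 * kk / (qb + 1 / v))) + τ) / (1 - τ) + (Real.exp η - 1)) * A0 := by
    have h1 : ∫ t in S, cexp ((2 * Real.pi * m * t : ℝ) * I) * (Real.exp (u t) : ℂ) ∂(gam v)
        = ∫ t in S, cexp ((2 * Real.pi * m * t : ℝ) * I) * (w0 b q t : ℂ) ∂(gam v)
          + ∫ t in S, cexp ((2 * Real.pi * m * t : ℝ) * I)
            * ((Real.exp (u t) - w0 b q t : ℝ) : ℂ) ∂(gam v) := by
      rw [← integral_add hJi.integrableOn]
      · refine integral_congr_ae (Filter.Eventually.of_forall fun t => ?_)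
        simp only []
        push_cast
        ring
      · have := hui2.sub hJi.integrableOn
        refine this.congr (Filter.Eventually.of_forall fun t => ?_)
        simp only [Pi.sub_apply]
        push_cast
        ring
    rw [h1, add_mul]
    refine (norm_add_le _ _).trans (add_le_add hJ0 ?_)
    rw [hA0, ← integral_const_mul]
    refine norm_integral_le_of_norm_le (hw0i.integrableOn.const_mul _) ?_
    filter_upwards [ae_restrict_mem hSm] with t ht
    rw [norm_mul, Complex.norm_exp_ofReal_mul_I, one_mul, Complex.norm_real, Real.norm_eq_abs]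
    exact (hcmp t ht).1
  have hη1 : 0 ≤ Real.exp η - 1 := by
    have := Real.add_one_le_exp η
    linarith
  have hfin : ‖∫ t in S, cexp ((2 * Real.pi * m * t : ℝ) * I) * (Real.exp (u t) : ℂ) ∂(gam v)‖
      ≤ th0 kk v qb B T η * A := by
    refine hJ.trans ?_
    unfold th0
    rw [← hτd]
    have h1 : 0 ≤ (Real.exp (-(2 * Real.pi ^ 2 * kk / (qb + 1 / v))) + τ) / (1 - τ)
        + (Real.exp η - 1) := by
      have : 0 < 1 - τ := by linarith
      positivity
    calc _ ≤ ((Real.exp (-(2 * Real.pi ^ 2 * kk / (qb + 1 / v))) + τ) / (1 - τ) + (Real.exp η - 1))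
          * (Real.exp η * A) := mul_le_mul_of_nonneg_left hA0A h1
      _ = _ := by ring
  rw [kap_int, kap_int, norm_smul, Real.norm_eq_abs, abs_of_pos (inv_pos.2 (cS_pos hv hT0)),
    smul_eq_mul]
  calc (cS v T)⁻¹ * _ ≤ (cS v T)⁻¹ * (th0 kk v qb B T η * A) :=
        mul_le_mul_of_nonneg_left hfin (inv_pos.2 (cS_pos hv hT0)).le
    _ = _ := by ring


/-- the gain of one large slope -/
noncomputable def eps1 (qb B η : ℝ) : ℝ := Real.exp (-(B ^ 2 / (8 * qb)) + 2 * η)

/-- the shift parameter -/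
noncomputable def sB (qb B : ℝ) : ℝ := B / (2 * qb)

/-- the dominating kernel of one shell -/
noncomputable def lam1 (kk v qb B T η : ℝ) : Measure ℝ :=
  ENNReal.ofReal (th0 kk v qb B T η) • kap v T + (kap v T).restrict {t | sB qb B < |t|}
    + ENNReal.ofReal (eps1 qb B η) • (kap v T).map (fun t => t + sB qb B)
    + ENNReal.ofReal (eps1 qb B η) • (kap v T).map (fun t => t - sB qb B)

theorem th0_nonneg {kk v qb B T η : ℝ} (hτ : tauT v B T < 1) (hη : 0 ≤ η) : 0 ≤ th0 kk v qb B T η := by
  unfold th0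
  have h1 : 0 < 1 - tauT v B T := by linarith
  have h2 : 0 < tauT v B T := by unfold tauT; positivity
  have h3 : 0 ≤ Real.exp η - 1 := by
    have := Real.add_one_le_exp η
    linarith
  positivity

theorem lam1_fin {kk v qb B T η : ℝ} (hv : 0 < v) (hT : 0 < T) :
    IsFiniteMeasure (lam1 kk v qb B T η) := by
  have := kap_prob hv hT
  unfold lam1
  constructor
  simp only [Measure.add_apply, Measure.smul_apply, smul_eq_mul]
  refine ENNReal.add_lt_top.2 ⟨ENNReal.add_lt_top.2 ⟨ENNReal.add_lt_top.2 ⟨?_, ?_⟩, ?_⟩, ?_⟩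
  · exact ENNReal.mul_lt_top ENNReal.ofReal_lt_top (measure_lt_top _ _)
  · exact measure_lt_top _ _
  · exact ENNReal.mul_lt_top ENNReal.ofReal_lt_top (measure_lt_top _ _)
  · exact ENNReal.mul_lt_top ENNReal.ofReal_lt_top (measure_lt_top _ _)

theorem lam1_univ {kk v qb B T η : ℝ} (hv : 0 < v) (hT : 0 < T) (hτ : tauT v B T < 1) (hη : 0 ≤ η) :
    (lam1 kk v qb B T η).real Set.univ = th0 kk v qb B T η + (kap v T).real {t | sB qb B < |t|}
      + 2 * eps1 qb B η := by
  have := kap_prob hv hT
  have m1 : Measurable fun t : ℝ => t + sB qb B := by fun_prop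
  have m2 : Measurable fun t : ℝ => t - sB qb B := by fun_prop
  unfold lam1
  simp only [measureReal_def, Measure.add_apply, Measure.smul_apply, smul_eq_mul,
    Measure.map_apply m1 MeasurableSet.univ, Measure.map_apply m2 MeasurableSet.univ,
    Set.preimage_univ, measure_univ, mul_one, Measure.restrict_apply MeasurableSet.univ,
    Set.univ_inter]
  have e1 : 0 ≤ eps1 qb B η := (Real.exp_pos _).le
  rw [ENNReal.toReal_add, ENNReal.toReal_add, ENNReal.toReal_add,
    ENNReal.toReal_ofReal (th0_nonneg hτ hη), ENNReal.toReal_ofReal e1]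
  · ring
  · exact ENNReal.ofReal_ne_top
  · exact measure_ne_top _ _
  · exact ENNReal.add_ne_top.2 ⟨ENNReal.ofReal_ne_top, measure_ne_top _ _⟩
  · exact ENNReal.ofReal_ne_top
  · exact ENNReal.add_ne_top.2 ⟨ENNReal.add_ne_top.2 ⟨ENNReal.ofReal_ne_top, measure_ne_top _ _⟩,
      ENNReal.ofReal_ne_top⟩
  · exact ENNReal.ofReal_ne_top

theorem lam1_supp {kk v qb B T η : ℝ} (hs : 0 ≤ sB qb B) :
    ∀ᵐ t ∂(lam1 kk v qb B T η), |t| ≤ T + sB qb B := by
  have hk : ∀ᵐ t ∂(kap v T), |t| ≤ T := kap_supp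
  have m1 : Measurable fun t : ℝ => t + sB qb B := by fun_prop
  have m2 : Measurable fun t : ℝ => t - sB qb B := by fun_prop
  have hset : MeasurableSet {t : ℝ | |t| ≤ T + sB qb B} :=
    measurableSet_le (by fun_prop) (by fun_prop)
  have a1 : ∀ᵐ t ∂(kap v T), |t| ≤ T + sB qb B := by
    filter_upwards [hk] with t ht
    linarith
  have a2 : ∀ᵐ t ∂((kap v T).map fun t => t + sB qb B), |t| ≤ T + sB qb B := by
    rw [ae_map_iff m1.aemeasurable hset]
    filter_upwards [hk] with t ht
    calc |t + sB qb B| ≤ |t| + |sB qb B| := abs_add_le _ _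
      _ ≤ T + sB qb B := by rw [abs_of_nonneg hs]; linarith
  have a3 : ∀ᵐ t ∂((kap v T).map fun t => t - sB qb B), |t| ≤ T + sB qb B := by
    rw [ae_map_iff m2.aemeasurable hset]
    filter_upwards [hk] with t ht
    calc |t - sB qb B| ≤ |t| + |sB qb B| := abs_sub _ _
      _ ≤ T + sB qb B := by rw [abs_of_nonneg hs]; linarith
  unfold lam1
  rw [ae_add_measure_iff, ae_add_measure_iff, ae_add_measure_iff]
  exact ⟨⟨⟨Measure.ae_smul_measure a1 _, ae_restrict_of_ae a1⟩, Measure.ae_smul_measure a2 _⟩,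
    Measure.ae_smul_measure a3 _⟩

/-- the one-shell inequality -/
theorem one_shell {kk v q qb b B T η : ℝ} (hk0 : 0 ≤ kk) (hv : 0 < v) (hq : 0 ≤ q) (hqb : q ≤ qb) (hqb0 : 0 < qb)
    (hB : 0 < B) (hT0 : 0 < T) (hT : B * v ≤ T) (hτ : tauT v B T < 1) (hη : 0 ≤ η)
    {u : ℝ → ℝ} (hu : Measurable u)
    (hu1 : ∀ t, |t| ≤ T + sB qb B → |u t + b * t + q * t ^ 2 / 2| ≤ η)
    {m : ℝ} (hm : kk ≤ m ^ 2) :
    ‖∫ t, cexp ((2 * Real.pi * m * t : ℝ) * I) * (Real.exp (u t) : ℂ) ∂(kap v T)‖
      ≤ ∫ t, Real.exp (u t) ∂(lam1 kk v qb B T η) := by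
  have hpr := kap_prob hv hT0
  have hfin := lam1_fin (kk := kk) (qb := qb) (B := B) (η := η) hv hT0
  have hs : 0 < sB qb B := by unfold sB; positivity
  set s := sB qb B with hsd
  have hkapfin : IsFiniteMeasure (kap v T) := inferInstance
  -- bound of exp u on the large window
  set C := Real.exp (η + |b| * (T + s)) with hC
  have hub : ∀ t, |t| ≤ T + s → Real.exp (u t) ≤ C := by
    intro t ht
    refine Real.exp_le_exp.2 ?_
    have h1 := (abs_le.1 (hu1 t ht)).2
    have h2 : -(b * t) ≤ |b| * (T + s) := by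
      calc -(b * t) ≤ |b * t| := neg_le_abs _
        _ = |b| * |t| := abs_mul _ _
        _ ≤ _ := mul_le_mul_of_nonneg_left ht (abs_nonneg _)
    have h3 : 0 ≤ q * t ^ 2 / 2 := by positivity
    linarith
  have hum : Measurable fun t => Real.exp (u t) := Real.measurable_exp.comp hu
  have hint : ∀ ν : Measure ℝ, IsFiniteMeasure ν → (∀ᵐ t ∂ν, |t| ≤ T + s) →
      Integrable (fun t => Real.exp (u t)) ν := by
    intro ν _ hν
    refine (integrable_const C).mono' hum.aestronglyMeasurable ?_
    filter_upwards [hν] with t ht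
    rw [Real.norm_eq_abs, abs_of_pos (Real.exp_pos _)]
    exact hub t ht
  have hk : ∀ᵐ t ∂(kap v T), |t| ≤ T := kap_supp
  have a1 : ∀ᵐ t ∂(kap v T), |t| ≤ T + s := by
    filter_upwards [hk] with t ht
    linarith
  have m1 : Measurable fun t : ℝ => t + s := by fun_prop
  have m2 : Measurable fun t : ℝ => t - s := by fun_prop
  have hset : MeasurableSet {t : ℝ | |t| ≤ T + s} :=
    measurableSet_le (by fun_prop) (by fun_prop)
  have a2 : ∀ᵐ t ∂((kap v T).map fun t => t + s), |t| ≤ T + s := by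
    rw [ae_map_iff m1.aemeasurable hset]
    filter_upwards [hk] with t ht
    calc |t + s| ≤ |t| + |s| := abs_add_le _ _
      _ ≤ T + s := by rw [abs_of_nonneg hs.le]; linarith
  have a3 : ∀ᵐ t ∂((kap v T).map fun t => t - s), |t| ≤ T + s := by
    rw [ae_map_iff m2.aemeasurable hset]
    filter_upwards [hk] with t ht
    calc |t - s| ≤ |t| + |s| := abs_sub _ _
      _ ≤ T + s := by rw [abs_of_nonneg hs.le]; linarith
  have f2 : IsFiniteMeasure ((kap v T).map fun t => t + s) := inferInstance
  have f3 : IsFiniteMeasure ((kap v T).map fun t => t - s) := inferInstance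
  have i0 : Integrable (fun t => Real.exp (u t)) (kap v T) := hint _ inferInstance a1
  have i1 : Integrable (fun t => Real.exp (u t)) (ENNReal.ofReal (th0 kk v qb B T η) • kap v T) :=
    i0.smul_measure ENNReal.ofReal_ne_top
  have i2 : Integrable (fun t => Real.exp (u t)) ((kap v T).restrict {t | s < |t|}) :=
    i0.integrableOn
  have i3 : Integrable (fun t => Real.exp (u t))
      (ENNReal.ofReal (eps1 qb B η) • (kap v T).map (fun t => t + s)) :=
    (hint _ f2 a2).smul_measure ENNReal.ofReal_ne_top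
  have i4 : Integrable (fun t => Real.exp (u t))
      (ENNReal.ofReal (eps1 qb B η) • (kap v T).map (fun t => t - s)) :=
    (hint _ f3 a3).smul_measure ENNReal.ofReal_ne_top
  have he1 : 0 ≤ eps1 qb B η := (Real.exp_pos _).le
  have hlam : ∫ t, Real.exp (u t) ∂(lam1 kk v qb B T η)
      = th0 kk v qb B T η * ∫ t, Real.exp (u t) ∂(kap v T)
        + ∫ t in {t | s < |t|}, Real.exp (u t) ∂(kap v T)
        + eps1 qb B η * ∫ t, Real.exp (u (t + s)) ∂(kap v T)
        + eps1 qb B η * ∫ t, Real.exp (u (t - s)) ∂(kap v T) := by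
    unfold lam1
    rw [← hsd, integral_add_measure ((i1.add_measure i2).add_measure i3) i4,
      integral_add_measure (i1.add_measure i2) i3, integral_add_measure i1 i2,
      integral_smul_measure, integral_smul_measure, integral_smul_measure,
      ENNReal.toReal_ofReal (th0_nonneg hτ hη), ENNReal.toReal_ofReal he1,
      integral_map m1.aemeasurable hum.aestronglyMeasurable,
      integral_map m2.aemeasurable hum.aestronglyMeasurable]
    simp only [smul_eq_mul]
  have n1 : 0 ≤ ∫ t, Real.exp (u t) ∂(kap v T) := integral_nonneg fun t => (Real.exp_pos _).le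
  have n2 : 0 ≤ ∫ t in {t | s < |t|}, Real.exp (u t) ∂(kap v T) :=
    integral_nonneg fun t => (Real.exp_pos _).le
  have n3 : 0 ≤ ∫ t, Real.exp (u (t + s)) ∂(kap v T) := integral_nonneg fun t => (Real.exp_pos _).le
  have n4 : 0 ≤ ∫ t, Real.exp (u (t - s)) ∂(kap v T) := integral_nonneg fun t => (Real.exp_pos _).le
  have hth := th0_nonneg (kk := kk) (qb := qb) hτ hη
  rw [hlam]
  by_cases hbB : |b| ≤ B
  · have h1 := small_slope hk0 hv hq hqb hbB hT0 hT hτ hη hu
      (fun t ht => hu1 t (by linarith)) hm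
    have h3 := mul_nonneg he1 n3
    have h4 := mul_nonneg he1 n4
    linarith
  · push Not at hbB
    -- trivial bound
    have h0 : ‖∫ t, cexp ((2 * Real.pi * m * t : ℝ) * I) * (Real.exp (u t) : ℂ) ∂(kap v T)‖
        ≤ ∫ t, Real.exp (u t) ∂(kap v T) := by
      refine (norm_integral_le_integral_norm _).trans (le_of_eq ?_)
      refine integral_congr_ae (Filter.Eventually.of_forall fun t => ?_)
      simp only []
      rw [norm_mul, Complex.norm_exp_ofReal_mul_I, one_mul, Complex.norm_real, Real.norm_eq_abs,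
        abs_of_pos (Real.exp_pos _)]
    have hSs : MeasurableSet {t : ℝ | s < |t|} := measurableSet_lt (by fun_prop) (by fun_prop)
    have hsplit := integral_add_compl hSs i0
    -- the part |t| <= s
    have hpt : ∀ t, |t| ≤ s → |t| ≤ T → Real.exp (u t)
        ≤ eps1 qb B η * (Real.exp (u (t + s)) + Real.exp (u (t - s))) := by
      intro t hts htT
      -- sign of b
      obtain ⟨σ, hσ, hσb⟩ : ∃ σ : ℝ, (σ = 1 ∨ σ = -1) ∧ σ * b = |b| := by
        rcases le_total 0 b with h | h
        · exact ⟨1, Or.inl rfl, by rw [one_mul, abs_of_nonneg h]⟩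
        · exact ⟨-1, Or.inr rfl, by rw [abs_of_nonpos h]; ring⟩
      have hσ2 : σ ^ 2 = 1 := by rcases hσ with h | h <;> rw [h] <;> norm_num
      have hσa : |σ| = 1 := by rcases hσ with h | h <;> rw [h] <;> simp
      have htσ : |t - σ * s| ≤ T + s := by
        calc |t - σ * s| ≤ |t| + |σ * s| := abs_sub _ _
          _ = |t| + s := by rw [abs_mul, hσa, one_mul, abs_of_pos hs]
          _ ≤ T + s := by linarith
      have h1 := (abs_le.1 (hu1 t (by linarith))).2
      have h2 := (abs_le.1 (hu1 (t - σ * s) htσ)).1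
      have hle : u t ≤ (-(B ^ 2 / (8 * qb)) + 2 * η) + u (t - σ * s) := by
        have e1 : b * (t - σ * s) = b * t - |b| * s := by rw [← hσb]; ring
        have e2 : q * (t - σ * s) ^ 2 / 2 = q * t ^ 2 / 2 - q * σ * s * t + q * s ^ 2 / 2 := by
          have : (t - σ * s) ^ 2 = t ^ 2 - 2 * (σ * s * t) + σ ^ 2 * s ^ 2 := by ring
          rw [this, hσ2]
          ring
        rw [e1, e2] at h2
        have h3 : -(q * σ * s * t) ≤ qb * s ^ 2 := by
          calc -(q * σ * s * t) ≤ |q * σ * s * t| := neg_le_abs _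
            _ = q * s * |t| := by
                rw [abs_mul, abs_mul, abs_mul, hσa, mul_one, abs_of_nonneg hq, abs_of_pos hs]
            _ ≤ qb * s * s := by
                apply mul_le_mul (mul_le_mul_of_nonneg_right hqb hs.le) hts (abs_nonneg _)
                positivity
            _ = _ := by ring
        have h4 : q * s ^ 2 / 2 ≤ qb * s ^ 2 / 2 := by
          have := mul_le_mul_of_nonneg_right hqb (sq_nonneg s)
          linarith
        have h5 : B * s ≤ |b| * s := mul_le_mul_of_nonneg_right hbB.le hs.le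
        have e3 : -(B * s) + qb * s ^ 2 + qb * s ^ 2 / 2 = -(B ^ 2 / (8 * qb)) := by
          rw [hsd]
          unfold sB
          field_simp
          ring
        linarith
      have h6 : Real.exp (u t) ≤ eps1 qb B η * Real.exp (u (t - σ * s)) := by
        unfold eps1
        rw [← Real.exp_add]
        exact Real.exp_le_exp.2 hle
      refine h6.trans (mul_le_mul_of_nonneg_left ?_ he1)
      rcases hσ with h | h
      · rw [h, one_mul]
        have := Real.exp_pos (u (t + s))
        linarith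
      · rw [h]
        have e : t - -1 * s = t + s := by ring
        rw [e]
        have := Real.exp_pos (u (t - s))
        linarith
    have i5 : Integrable (fun t => Real.exp (u (t + s))) (kap v T) := by
      have h := hint _ f2 a2
      exact (integrable_map_measure hum.aestronglyMeasurable m1.aemeasurable).1 h
    have i6 : Integrable (fun t => Real.exp (u (t - s))) (kap v T) := by
      have h := hint _ f3 a3
      exact (integrable_map_measure hum.aestronglyMeasurable m2.aemeasurable).1 h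
    have hin : ∫ t in {t : ℝ | s < |t|}ᶜ, Real.exp (u t) ∂(kap v T)
        ≤ eps1 qb B η * ∫ t, Real.exp (u (t + s)) ∂(kap v T)
          + eps1 qb B η * ∫ t, Real.exp (u (t - s)) ∂(kap v T) := by
      rw [← mul_add, ← integral_add i5 i6, ← integral_const_mul, ← integral_indicator hSs.compl]
      refine integral_mono_ae (i0.indicator hSs.compl) ((i5.add i6).const_mul _) ?_
      filter_upwards [hk] with t ht
      by_cases hts : t ∈ {t : ℝ | s < |t|}ᶜ
      · rw [Set.indicator_of_mem hts]
        have hts' : |t| ≤ s := by simpa using hts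
        exact hpt t hts' ht
      · rw [Set.indicator_of_notMem hts]
        have := Real.exp_pos (u (t + s))
        have := Real.exp_pos (u (t - s))
        positivity
    have h7 := mul_nonneg hth n1
    linarith

end Vale.Agent.P159.TM.H783
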