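import Vale.Agent.P159.TM.H783.C5
import Vale.Agent.P159.TM.H104.Rho
import Vale.Agent.P159.TM.H365.Phi3
import Vale.Agent.P159.TM.H845.Meas
import Vale.Agent.P159.TM.Spec.C

/-!
[783] P159, row C5 (applied form): the shell lemma for the density `ρ` on the coarse torus
`ZMod M × ZMod M`, interpolation `AA l r` of `H365`.
-/

open MeasureTheory Complex
open Vale.Agent.P159.TM.H859 (tn tn_nonneg)
open Vale.Agent.P159.TM.H104 (ddU ddUb dddUb rho_H3 rho_H4)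
open Vale.Agent.P159.TM.H845 (rho rho_pos rho_meas rho_int)
open Vale.Agent.P159.TM.H871 (Wt Sup Gin)
open Vale.Agent.P159.TM.H365 (AA AA_add' AA_smul' AA_sub' continuous_AA)
open Vale.Agent.P159.TM.SpecC (Tor LipT)

set_option linter.unusedSectionVars false

namespace Vale.Agent.P159.TM.H783

section

variable {M N : ℕ} [NeZero M] [NeZero N]

theorem LipT.mono {ℓ ℓ' : ℝ} (h : ℓ ≤ ℓ') {f : Tor N → ℝ} (hf : LipT ℓ f) : LipT ℓ' f :=
  fun x y => (hf x y).trans (mul_le_mul_of_nonneg_right h (tn_nonneg _))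

theorem LipT.add {ℓ ℓ' : ℝ} {f g : Tor N → ℝ} (hf : LipT ℓ f) (hg : LipT ℓ' g) :
    LipT (ℓ + ℓ') (f + g) := by
  intro x y
  have h1 := hf x y
  have h2 := hg x y
  have e : (f + g) x - (f + g) y = (f x - f y) + (g x - g y) := by
    simp only [Pi.add_apply]
    ring
  rw [e, add_mul]
  exact (abs_add_le _ _).trans (add_le_add h1 h2)

theorem LipT.neg {ℓ : ℝ} {g : Tor N → ℝ} (hg : LipT ℓ g) : LipT ℓ (-g) := by
  intro x y
  have h2 := hg y x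
  simp only [Pi.neg_apply]
  have e : -g x - -g y = g y - g x := by ring
  have e2 : tn (y - x) = tn (x - y) := by
    rw [← neg_sub x y, Vale.Agent.P159.TM.H859.tn_neg]
  rw [e, ← e2]
  exact h2

theorem LipT.sub {ℓ ℓ' : ℝ} {f g : Tor N → ℝ} (hf : LipT ℓ f) (hg : LipT ℓ' g) :
    LipT (ℓ + ℓ') (f - g) := by
  rw [sub_eq_add_neg]
  exact LipT.add hf (LipT.neg hg)

/-- slope of a shift by the shells with coefficients at most `T` -/
noncomputable def slp (L r0 : ℝ) (l r : ℕ) (T : ℝ) : ℝ :=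
  Real.sqrt 2 * (2 * T / (r0 * L)) / ((l : ℝ) - 2 * r)

theorem slp_mono {L r0 T T' : ℝ} {l r : ℕ} (hr : 2 * r < l) (hL : 0 < L) (hr0 : 0 < r0)
    (h : T ≤ T') : slp L r0 l r T ≤ slp L r0 l r T' := by
  unfold slp
  have h1 : (0 : ℝ) < (l : ℝ) - 2 * r := H365.ramp_pos hr
  gcongr

theorem sh_lip {l r : ℕ} (hN : N = M * l) (hr : 2 * r < l) (x0 : ZMod M × ZMod M) {L r0 T : ℝ}
    (hL : 0 < L) (hr0 : 0 < r0) {I : ℕ} (hT : 0 ≤ T) {t : Fin I → ℝ} (ht : ∀ i, |t i| ≤ T) :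
    LipT (slp L r0 l r T)
      (AA l r (∑ i, t i • shl x0 r0 (Real.exp L) I i) : Tor N → ℝ) := by
  have hM0 : 0 ≤ 2 * T / (r0 * L) := by positivity
  have key : ∀ u e : ZMod M × ZMod M, tn e ≤ 1 →
      |(∑ i, t i • shl x0 r0 (Real.exp L) I i) (u + e) - (∑ i, t i • shl x0 r0 (Real.exp L) I i) u|
        ≤ 2 * T / (r0 * L) := by
    intro u e he
    have h1 := c5_lip x0 hL hr0 hT ht (u + e) u
    simp only [Finset.sum_apply, Pi.smul_apply, smul_eq_mul]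
    refine h1.trans ?_
    rw [add_sub_cancel_left]
    exact (mul_le_mul_of_nonneg_left he hM0).trans (by rw [mul_one])
  intro x y
  exact H365.AA_lip_tn hN hr hM0 _ (fun u => key u _ (H365.tn_e1_le inferInstance))
    (fun u => key u _ (H365.tn_e2_le inferInstance)) x y

theorem sh_lip1 {l r : ℕ} (hN : N = M * l) (hr : 2 * r < l) (x0 : ZMod M × ZMod M) {L r0 T : ℝ}
    (hL : 0 < L) (hr0 : 0 < r0) {I : ℕ} (hT : 0 ≤ T) (i : Fin I) {s : ℝ} (hs : |s| ≤ T) :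
    LipT (slp L r0 l r T) (AA l r (s • shl x0 r0 (Real.exp L) I i) : Tor N → ℝ) := by
  have h := sh_lip hN hr x0 hL hr0 hT (t := Pi.single i s) (I := I) (by
    intro j
    by_cases hj : j = i
    · rw [hj, Pi.single_eq_same]
      exact hs
    · rw [Pi.single_eq_of_ne hj, abs_zero]
      exact hT)
  have e : ∑ j, (Pi.single i s : Fin I → ℝ) j • shl x0 r0 (Real.exp L) I j
      = s • shl x0 r0 (Real.exp L) I i := by
    rw [Finset.sum_eq_single i]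
    · rw [Pi.single_eq_same]
    · intro j _ hj
      rw [Pi.single_eq_of_ne hj, zero_smul]
    · intro h'
      exact absurd (Finset.mem_univ _) h'
  rwa [e] at h

/-- **row C5**: the shell lemma for `ρ` on the coarse torus -/
theorem sh_bound {W : (Tor N → ℤ) → ℝ} {ms : Tor N → ℝ} (hW : Wt W) (hms : ∀ x, 0 < ms x)
    (hs : ∀ h, W (h + 1) = W h) (hS : Sup W) (hG : Gin W ms)
    {K l r : ℕ} (hN : N = M * l) (hr : 2 * r < l) (hK : 1 ≤ K) (hM : 2 ≤ M)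
    (x0 : ZMod M × ZMod M)
    {L c r0 : ℝ} (hL : 0 < L) (hr0 : 1 ≤ r0) (hX : 1 ≤ Xr c r0 M K)
    {v qb B T η : ℝ} (hv : 0 < v) (hqb0 : 0 < qb) (hB : 0 < B) (hT0 : 0 < T) (hT : B * v ≤ T)
    (hτ : tauT v B T < 1)
    {kk mm : ℝ} (hk : 0 ≤ kk) (hmm : kk ≤ mm ^ 2)
    {ℓ1 ℓ2 ℓ3 : ℝ} (h12 : ℓ1 + slp L r0 l r T ≤ ℓ2)
    (h23 : ℓ2 + slp L r0 l r (T + sB qb B) ≤ ℓ3)
    {e0 e3 : ℝ} (he0 : 0 ≤ e0)
    (hpair : ∀ f : Tor N → ℝ, LipT ℓ3 f → ∀ j k : Fin (nsh L (Xr c r0 M K)), j ≠ k →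
      |ddUb W ms f (AA l r (shl x0 r0 (Real.exp L) _ j))
        (AA l r (shl x0 r0 (Real.exp L) _ k))| ≤ e0)
    (h3 : ∀ f : Tor N → ℝ, LipT ℓ3 f → ∀ i : Fin (nsh L (Xr c r0 M K)),
      |dddUb W ms f (AA l r (shl x0 r0 (Real.exp L) _ i)) (AA l r (shl x0 r0 (Real.exp L) _ i))
        (AA l r (shl x0 r0 (Real.exp L) _ i))| ≤ e3)
    (hη0 : 0 ≤ η) (hη : e3 * (T + sB qb B) ^ 3 ≤ η)
    (hq : ∀ i : Fin (nsh L (Xr c r0 M K)),
      (∑ u, shl x0 r0 (Real.exp L) _ i u ^ 2) / s2c M K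
        + ddU W ms 0 (AA l r (shl x0 r0 (Real.exp L) _ i))
          (AA l r (shl x0 r0 (Real.exp L) _ i)) ≤ qb)
    {F : (ZMod M × ZMod M → ℝ) → ℂ} (hFm : Measurable F) {B0 B1 : ℝ} (hF0 : ∀ G, ‖F G‖ ≤ B0)
    (hB1 : 0 ≤ B1) (hF1 : ∀ G, LipT ℓ2 (AA l r G : Tor N → ℝ) → ‖F G‖ ≤ B1)
    (hF2 : ∀ G (t : Fin (nsh L (Xr c r0 M K)) → ℝ),
      F (G + ∑ i, t i • shl x0 r0 (Real.exp L) _ i)
        = cexp ((2 * Real.pi * mm * ∑ i, t i : ℝ) * I) * F G)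
    {d1 g : ℝ} (hd1 : (nsh L (Xr c r0 M K) : ℝ) * ((nsh L (Xr c r0 M K) : ℝ) *
      ((T + sB qb B) ^ 2 * e0)) ≤ d1) (hg : thT kk v qb B T η ^ nsh L (Xr c r0 M K) ≤ g) :
    ‖∫ G : ZMod M × ZMod M → ℝ, F G * (rho W ms (AA l r) (s2c M K) G : ℂ)‖
      ≤ B0 * (∫ G in {G : ZMod M × ZMod M → ℝ | LipT ℓ1 (AA (N := N) l r G)}ᶜ,
            rho W ms (AA l r) (s2c M K) G)
        + B1 * (Real.exp d1 - 1) *
            (∫ G : ZMod M × ZMod M → ℝ, rho W ms (AA (N := N) l r) (s2c M K) G)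
        + B1 * Real.exp (d1 + 40 * (T + sB qb B) ^ 2 * c ^ 2) * g *
            (∫ G : ZMod M × ZMod M → ℝ, rho W ms (AA (N := N) l r) (s2c M K) G) := by
  classical
  set J := nsh L (Xr c r0 M K) with hJ
  set Ψ : Fin J → ZMod M × ZMod M → ℝ := shl x0 r0 (Real.exp L) J with hΨ
  have hr0' : 0 < r0 := by linarith
  have hsB : 0 < sB qb B := by unfold sB; positivity
  have hs2 : 0 < s2c M K := s2c_pos hM hK
  have hAc : Continuous fun G : ZMod M × ZMod M → ℝ => AA (N := N) l r G := continuous_AA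
  have hA : ∀ G G' : ZMod M × ZMod M → ℝ,
      AA (N := N) l r (G + G') = AA l r G + AA l r G' := fun G G' => AA_add' G G'
  have hA' : ∀ (c : ℝ) (G : ZMod M × ZMod M → ℝ),
      AA (N := N) l r (c • G) = c • AA l r G := fun c G => AA_smul' c G
  have hρm := rho_meas (C := ZMod M × ZMod M) hW hms hAc (s2c M K)
  have hρi := rho_int (C := ZMod M × ZMod M) hW hms hG hAc hs2
  have hTT : 0 ≤ T + sB qb B := by linarith
  have hm1 : MeasurableSet {G : ZMod M × ZMod M → ℝ | LipT ℓ1 (AA (N := N) l r G)} :=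
    H845.lipT_meas hAc
  have hm2 : MeasurableSet {G : ZMod M × ZMod M → ℝ | LipT ℓ2 (AA (N := N) l r G)} :=
    H845.lipT_meas hAc
  have hd0 : 0 ≤ d1 := le_trans (by positivity) hd1
  have hρ0 : 0 ≤ ∫ G : ZMod M × ZMod M → ℝ, rho W ms (AA (N := N) l r) (s2c M K) G :=
    integral_nonneg fun G => (rho_pos _ _ _ _ _).le
  have key := shell (E := ZMod M × ZMod M → ℝ) (ι := Fin J) volume hρm
    (fun G => rho_pos _ _ _ _ _) hρi hm1 hm2 hFm hF0 hB1 (fun G hG' => hF1 G hG') Ψ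
    (m := mm) (δ0 := 0) (δ1 := d1)
    (qs := 20 * (T + sB qb B) ^ 2 * c ^ 2) le_rfl hd0 hk hmm hv hqb0 hB hT0 hT hτ hη0
    (q := qf (s2c M K) Ψ) ?_ ?_ ?_ ?_ ?_ ?_
  · rw [Fintype.card_fin, zero_add] at key
    refine key.trans ?_
    have e1 : d1 + 2 * (20 * (T + sB qb B) ^ 2 * c ^ 2) = d1 + 40 * (T + sB qb B) ^ 2 * c ^ 2 := by
      ring
    rw [e1]
    exact add_le_add le_rfl (mul_le_mul_of_nonneg_right
      (mul_le_mul_of_nonneg_left hg (by positivity)) hρ0)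
  · unfold qf
    fun_prop
  · intro t ht
    exact c5_qf x0 hL hr0 hM hK hX ht
  · intro G hG' t ht
    show LipT ℓ2 (AA (N := N) l r (G - ∑ i, t i • Ψ i))
    rw [AA_sub']
    exact LipT.mono h12 (LipT.sub hG' (sh_lip hN hr x0 hL hr0' hT0.le ht))
  · intro G hG' t ht
    rw [show sh Ψ t = ∑ i, t i • Ψ i from rfl, hF2, sub_self, norm_zero]
  · intro G hG' t ht
    have h := rho_H3 hW hms hs hA hA' (s2c M K) G Ψ t ht he0 (fun s hs' j k hjk => by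
      refine hpair _ ?_ j k hjk
      rw [hA]
      exact LipT.mono h23 (LipT.add hG' (sh_lip hN hr x0 hL hr0' hTT hs')))
    rw [Fintype.card_fin] at h
    exact h.trans hd1
  · intro G hG' i
    obtain ⟨b, r', hr1, hr2, hbr⟩ := rho_H4 hW hms hs hS hG hA hA' hs2 G (Ψ i)
      (T := T + sB qb B) (e3 := e3) (hq i) (fun s hs' => by
        refine h3 _ ?_ i
        rw [hA]
        exact LipT.mono h23 (LipT.add hG' (sh_lip1 hN hr x0 hL hr0' hTT i hs')))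
    exact ⟨b, r', hr1, hr2, fun t ht => (hbr t ht).trans hη⟩

end

end Vale.Agent.P159.TM.H783
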