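import Vale.Agent.P159.TM.H783.One

/-!
[783] P159, row SHELL (part C5 of 617 #12802, (c5) of 907 #14376): the abstract shell lemma.
-/

open MeasureTheory ProbabilityTheory Complex

namespace Vale.Agent.P159.TM.H783

variable {E ι : Type*} [NormedAddCommGroup E] [NormedSpace ℝ E] [MeasurableSpace E] [BorelSpace E]
  [SecondCountableTopology E] [Fintype ι]

/-- total gain of one shell -/
noncomputable def thT (kk v qb B T η : ℝ) : ℝ :=
  th0 kk v qb B T η + (kap v T).real {t | sB qb B < |t|} + 2 * eps1 qb B η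

/-- **Shell lemma.** -/
theorem shell (μ : Measure E) [SigmaFinite μ] [μ.IsAddRightInvariant]
    {ρ : E → ℝ} (hρm : Measurable ρ) (hρ0 : ∀ g, 0 < ρ g) (hρi : Integrable ρ μ)
    {G G' : Set E} (hG : MeasurableSet G) (hG' : MeasurableSet G')
    {F : E → ℂ} (hFm : Measurable F) {B0 B1 : ℝ} (hFB : ∀ g, ‖F g‖ ≤ B0)
    (hB1 : 0 ≤ B1) (hFB1 : ∀ g ∈ G', ‖F g‖ ≤ B1)
    (ψ : ι → E) {m δ0 δ1 qs : ℝ} (hδ0 : 0 ≤ δ0) (hδ1 : 0 ≤ δ1)
    {kk : ℝ} (hk : 0 ≤ kk) (hm : kk ≤ m ^ 2)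
    {v qb B T η : ℝ} (hv : 0 < v) (hqb0 : 0 < qb) (hB : 0 < B) (hT0 : 0 < T) (hT : B * v ≤ T)
    (hτ : tauT v B T < 1) (hη : 0 ≤ η)
    {q : (ι → ℝ) → ℝ} (hqm : Measurable q)
    (hq : ∀ t : ι → ℝ, (∀ i, |t i| ≤ T + sB qb B) → |q t| ≤ qs)
    (H1 : ∀ g ∈ G, ∀ t : ι → ℝ, (∀ i, |t i| ≤ T) → g - sh ψ t ∈ G')
    (H2 : ∀ g ∈ G', ∀ t : ι → ℝ, (∀ i, |t i| ≤ T) →
      ‖F (g + sh ψ t) - cexp ((2 * Real.pi * m * ∑ i, t i : ℝ) * I) * F g‖ ≤ δ0)
    (H3 : ∀ g ∈ G', ∀ t : ι → ℝ, (∀ i, |t i| ≤ T + sB qb B) →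
      |Real.log (ρ (g + sh ψ t)) - Real.log (ρ g)
        - ∑ i, (Real.log (ρ (g + t i • ψ i)) - Real.log (ρ g)) + q t| ≤ δ1)
    (H4 : ∀ g ∈ G', ∀ i, ∃ b r : ℝ, 0 ≤ r ∧ r ≤ qb ∧ ∀ t : ℝ, |t| ≤ T + sB qb B →
      |Real.log (ρ (g + t • ψ i)) - Real.log (ρ g) + b * t + r * t ^ 2 / 2| ≤ η) :
    ‖∫ g, F g * (ρ g : ℂ) ∂μ‖ ≤ B0 * ∫ g in Gᶜ, ρ g ∂μ
      + (δ0 + B1 * (Real.exp δ1 - 1)) * ∫ g, ρ g ∂μ
      + B1 * Real.exp (δ1 + 2 * qs) * thT kk v qb B T η ^ Fintype.card ι * ∫ g, ρ g ∂μ := by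
  have hs : 0 < sB qb B := by unfold sB; positivity
  have hpr := kap_prob hv hT0
  have hfin := lam1_fin (kk := kk) (qb := qb) (B := B) (η := η) hv hT0
  have hlu : (lam1 kk v qb B T η).real Set.univ = thT kk v qb B T η := lam1_univ hv hT0 hτ hη
  rw [← hlu]
  refine core μ hρm hρ0 hρi hG hG' hFm hFB hB1 hFB1 ψ (m := m) (T := T) (T' := T + sB qb B)
    hδ0 hδ1 hqm hq (kap v T) (lam1 kk v qb B T η) kap_supp (lam1_supp hs.le) (by linarith)
    H1 H2 H3 ?_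
  intro g hg i
  obtain ⟨b, r, hr0, hrq, hbr⟩ := H4 g hg i
  have hum : Measurable fun t : ℝ => Real.log (ρ (g + t • ψ i)) - Real.log (ρ g) := by
    have h1 : Measurable fun t : ℝ => g + t • ψ i := by
      have : Continuous fun t : ℝ => g + t • ψ i := by fun_prop
      exact this.measurable
    exact ((Real.measurable_log.comp (hρm.comp h1)).sub_const _)
  have e : ∀ t : ℝ, w ρ g (t • ψ i) = Real.exp (Real.log (ρ (g + t • ψ i)) - Real.log (ρ g)) := by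
    intro t
    rw [Real.exp_sub, Real.exp_log (hρ0 _), Real.exp_log (hρ0 _)]
    rfl
  simp only [e]
  exact one_shell hk hv hr0 hrq hqb0 hB hT0 hT hτ hη hum hbr hm

/-! ### the size of the gain -/

theorem Zg00 (v : ℝ) : Zg v 0 0 = 1 := by
  unfold Zg
  simp

theorem gam_tail {v T : ℝ} (hv : 0 < v) (hT : 0 ≤ T) :
    (gam v).real (Set.Icc (-T) T)ᶜ ≤ 2 * Real.exp (-(T ^ 2 / (2 * v))) := by
  have h := tail (q := 0) (b := 0) (B := 0) (T := T) hv le_rfl (by simp) (by simpa using hT)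
  rw [Zg00] at h
  have e : ∀ t : ℝ, w0 0 0 t = 1 := by intro t; unfold w0; simp
  simp only [e] at h
  have e2 : ∫ _ in (Set.Icc (-T) T)ᶜ, (1 : ℝ) ∂(gam v) = (gam v).real (Set.Icc (-T) T)ᶜ := by
    simp
  rw [e2] at h
  simpa using h

theorem cS_lb {v T : ℝ} (hv : 0 < v) (hT : 0 ≤ T) :
    1 - 2 * Real.exp (-(T ^ 2 / (2 * v))) ≤ cS v T := by
  have h1 := gam_tail hv hT
  have h2 : (gam v).real (Set.Icc (-T) T)ᶜ = 1 - (gam v).real (Set.Icc (-T) T) :=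
    probReal_compl_eq_one_sub measurableSet_Icc
  unfold cS
  linarith

theorem kap_tail {v T s : ℝ} (hv : 0 < v) (hT : 0 < T) (hs : 0 ≤ s) :
    (kap v T).real {t | s < |t|} ≤ 2 * Real.exp (-(s ^ 2 / (2 * v))) / cS v T := by
  have hset : {t : ℝ | s < |t|} = (Set.Icc (-s) s)ᶜ := by
    ext t
    simp only [Set.mem_ofPred_eq, Set.mem_compl_iff, Set.mem_Icc, ← abs_le, not_le]
  have hm : MeasurableSet {t : ℝ | s < |t|} := by
    rw [hset]; exact measurableSet_Icc.compl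
  have h1 : (kap v T).real {t | s < |t|} = (cS v T)⁻¹ * (gam v).real (Set.Icc (-T) T ∩ {t | s < |t|}) := by
    unfold kap cS
    rw [measureReal_def, cond_apply measurableSet_Icc, ENNReal.toReal_mul, ENNReal.toReal_inv]
    rfl
  rw [h1, div_eq_inv_mul]
  refine mul_le_mul_of_nonneg_left ?_ (inv_pos.2 (cS_pos hv hT)).le
  refine (measureReal_mono Set.inter_subset_right).trans ?_
  rw [hset]
  exact gam_tail hv hs

theorem thT_le {kk v qb B T η : ℝ} (hv : 0 < v) (hqb : 0 < qb) (hB : 0 < B) (hT : 0 < T) :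
    thT kk v qb B T η ≤ th0 kk v qb B T η + 2 * Real.exp (-(sB qb B ^ 2 / (2 * v))) / cS v T
      + 2 * eps1 qb B η := by
  unfold thT
  have hs : 0 ≤ sB qb B := by unfold sB; positivity
  have := kap_tail (s := sB qb B) hv hT hs
  linarith



theorem ex1 {a d L : ℝ} (ha : 0 < a) (hd : 0 < d) (hL : 0 < L) (kk : ℝ) :
    2 * Real.pi ^ 2 * kk / ((1 + d) * (2 * Real.pi * a / L) + 1 / (L / (2 * Real.pi * a * d)))
      = kk * (Real.pi * L / a) / (1 + 2 * d) := by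
  have hpi := Real.pi_pos
  have h1 : 0 < 1 + 2 * d := by positivity
  field_simp
  ring

theorem ex2 {B v : ℝ} (hv : 0 < v) :
    (4 * B * v - B * v) ^ 2 / (2 * v) = 9 / 2 * B ^ 2 * v := by
  field_simp
  ring

theorem ex3 {B v : ℝ} (hv : 0 < v) : (4 * B * v) ^ 2 / (2 * v) = 8 * B ^ 2 * v := by
  field_simp
  ring

theorem ex6 {a d L : ℝ} (ha : 0 < a) (hd : 0 < d) (hd4 : d ≤ 1 / 4) (hL : 0 < L) :
    8 * (Real.pi * L / a) ≤ 9 / 2 * (6400 / d) * (L / (2 * Real.pi * a * d)) := by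
  have hpi := Real.pi_pos
  have hpi4 : Real.pi < 3.15 := Real.pi_lt_d2
  have e2 : 9 / 2 * (6400 / d) * (L / (2 * Real.pi * a * d))
      = Real.pi * L / a * (14400 / (Real.pi ^ 2 * d ^ 2)) := by
    field_simp
    ring
  rw [e2, mul_comm (8 : ℝ)]
  refine mul_le_mul_of_nonneg_left ?_ (by positivity)
  rw [le_div_iff₀ (by positivity)]
  have h5 : d ^ 2 ≤ 1 / 16 := by nlinarith
  have h6 : Real.pi ^ 2 ≤ 3.15 ^ 2 := by nlinarith
  have h7 : Real.pi ^ 2 * d ^ 2 ≤ 3.15 ^ 2 * (1 / 16) :=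
    mul_le_mul h6 h5 (by positivity) (by positivity)
  norm_num at h7 ⊢
  linarith

theorem ex4 {a d L B : ℝ} (ha : 0 < a) (hd : 0 < d) (hd4 : d ≤ 1 / 4) (hL : 0 < L)
    (hB2 : B ^ 2 = 6400 / d) :
    8 * (Real.pi * L / a) ≤ sB ((1 + d) * (2 * Real.pi * a / L)) B ^ 2
      / (2 * (L / (2 * Real.pi * a * d))) := by
  have hpi := Real.pi_pos
  have hpi4 : Real.pi < 3.15 := Real.pi_lt_d2
  have e : sB ((1 + d) * (2 * Real.pi * a / L)) B ^ 2 / (2 * (L / (2 * Real.pi * a * d)))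
      = Real.pi * L / a * (400 / ((1 + d) ^ 2 * Real.pi ^ 2)) := by
    unfold sB
    rw [div_pow, hB2]
    field_simp
    ring
  rw [e, mul_comm (8 : ℝ)]
  refine mul_le_mul_of_nonneg_left ?_ (by positivity)
  rw [le_div_iff₀ (by positivity)]
  have h5 : (1 + d) ^ 2 ≤ (5 / 4) ^ 2 := by nlinarith
  have h6 : Real.pi ^ 2 ≤ 3.15 ^ 2 := by nlinarith
  have h7 : (1 + d) ^ 2 * Real.pi ^ 2 ≤ (5 / 4) ^ 2 * 3.15 ^ 2 :=
    mul_le_mul h5 h6 (by positivity) (by positivity)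
  norm_num at h7 ⊢
  linarith

theorem ex5 {a d L B : ℝ} (ha : 0 < a) (hd : 0 < d) (hd4 : d ≤ 1 / 4) (hL : 0 < L)
    (hB2 : B ^ 2 = 6400 / d) :
    8 * (Real.pi * L / a) ≤ B ^ 2 / (8 * ((1 + d) * (2 * Real.pi * a / L))) := by
  have hpi := Real.pi_pos
  have hpi4 : Real.pi < 3.15 := Real.pi_lt_d2
  have e : B ^ 2 / (8 * ((1 + d) * (2 * Real.pi * a / L)))
      = Real.pi * L / a * (400 / (Real.pi ^ 2 * (d * (1 + d)))) := by
    rw [hB2]
    field_simp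
    ring
  rw [e, mul_comm (8 : ℝ)]
  refine mul_le_mul_of_nonneg_left ?_ (by positivity)
  rw [le_div_iff₀ (by positivity)]
  have h5 : d * (1 + d) ≤ 5 / 16 := by nlinarith
  have h6 : Real.pi ^ 2 ≤ 3.15 ^ 2 := by nlinarith
  have h7 : Real.pi ^ 2 * (d * (1 + d)) ≤ 3.15 ^ 2 * (5 / 16) :=
    mul_le_mul h6 h5 (by positivity) (by positivity)
  norm_num at h7 ⊢
  linarith

/-- numerical heart -/
theorem params_aux {kk v qb B T x d tgt : ℝ} (hv0 : 0 < v) (hqb0 : 0 < qb) (hB0 : 0 < B)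
    (hT0 : 0 < T) (hd : 0 < d) (hx16 : 16 ≤ x) (hxd : 4 ≤ d * x)
    (e1 : 2 * Real.pi ^ 2 * kk / (qb + 1 / v) = x / (1 + 2 * d))
    (e2 : 2 * x ≤ (T - B * v) ^ 2 / (2 * v)) (e3 : 2 * x ≤ T ^ 2 / (2 * v))
    (e4 : 2 * x ≤ sB qb B ^ 2 / (2 * v)) (e5 : 2 * x ≤ B ^ 2 / (8 * qb))
    (htgt : tgt = Real.exp (-(x * (1 - 3 * d)))) :
    tauT v B T < 1 ∧ ∃ η0 : ℝ, 0 < η0 ∧ ∀ η, 0 ≤ η → η ≤ η0 → thT kk v qb B T η ≤ tgt := by
  set y := Real.exp (-x) with hy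
  have hy0 : 0 < y := Real.exp_pos _
  have hy2 : Real.exp (-(2 * x)) = y ^ 2 := by
    rw [hy, ← Real.exp_nat_mul]
    congr 1
    push_cast
    ring
  have hysm : y ≤ 1 / 16 := by
    have h1 := Real.add_one_le_exp x
    have h2 : y * Real.exp x = 1 := by rw [hy, ← Real.exp_add]; simp
    have h4 : y * 16 ≤ y * Real.exp x := mul_le_mul_of_nonneg_left (by linarith) hy0.le
    linarith
  have hτle : tauT v B T ≤ 2 * y ^ 2 := by
    unfold tauT
    rw [← hy2]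
    have := Real.exp_le_exp.2 (neg_le_neg e2)
    linarith
  have hy3 : y ^ 2 ≤ 1 / 256 := by nlinarith
  have hτ1 : tauT v B T < 1 := by linarith
  have hτ0 : 0 < tauT v B T := by unfold tauT; positivity
  have hcS : 1 / 2 ≤ cS v T := by
    have h1 := cS_lb hv0 hT0.le
    have h2 := Real.exp_le_exp.2 (neg_le_neg e3)
    rw [hy2] at h2
    linarith
  have hstail : 2 * Real.exp (-(sB qb B ^ 2 / (2 * v))) / cS v T ≤ 4 * y ^ 2 := by
    have h2 := Real.exp_le_exp.2 (neg_le_neg e4)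
    rw [hy2] at h2
    rw [div_le_iff₀ (by linarith)]
    have h3 : 4 * y ^ 2 * (1 / 2) ≤ 4 * y ^ 2 * cS v T :=
      mul_le_mul_of_nonneg_left hcS (by positivity)
    linarith
  set z := Real.exp (-(x / (1 + 2 * d))) with hz
  have hz0 : 0 < z := Real.exp_pos _
  have hyz' : y ≤ z := by
    rw [hy, hz]
    refine Real.exp_le_exp.2 (neg_le_neg ?_)
    exact div_le_self (by linarith) (by linarith)
  have hyz : y ^ 2 ≤ 1 / 16 * z := by
    calc y ^ 2 = y * y := by ring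
      _ ≤ 1 / 16 * z := mul_le_mul hysm hyz' hy0.le (by norm_num)
  have htarget : 4 * z ≤ tgt := by
    have h1 : -(x * (1 - 3 * d)) = -(x / (1 + 2 * d)) + (x / (1 + 2 * d) - x * (1 - 3 * d)) := by
      ring
    rw [htgt, h1, Real.exp_add, ← hz, mul_comm]
    refine mul_le_mul_of_nonneg_left ?_ hz0.le
    have h2 : d * x ≤ x / (1 + 2 * d) - x * (1 - 3 * d) := by
      have h3 : x * (1 - 2 * d) ≤ x / (1 + 2 * d) := by
        rw [le_div_iff₀ (by linarith)]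
        have : 0 ≤ x * (4 * d ^ 2) := by positivity
        nlinarith
      linarith
    have h4 := Real.add_one_le_exp (x / (1 + 2 * d) - x * (1 - 3 * d))
    linarith
  set Φ : ℝ → ℝ := fun η => Real.exp η * ((z + tauT v B T) / (1 - tauT v B T)
    + (Real.exp η - 1)) + 4 * y ^ 2 + 2 * (y ^ 2 * Real.exp (2 * η)) with hΦ
  have hΦc : Continuous Φ := by
    rw [hΦ]
    fun_prop
  have hΦ0 : Φ 0 < tgt := by
    have e : Φ 0 = (z + tauT v B T) / (1 - tauT v B T) + 6 * y ^ 2 := by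
      rw [hΦ]
      simp only [Real.exp_zero, mul_zero]
      ring
    rw [e]
    refine lt_of_lt_of_le ?_ htarget
    have h1 : (z + tauT v B T) / (1 - tauT v B T) ≤ 2 * z := by
      rw [div_le_iff₀ (by linarith)]
      have h2 : 2 * z * (1 - 2 * y ^ 2) ≤ 2 * z * (1 - tauT v B T) :=
        mul_le_mul_of_nonneg_left (by linarith) (by positivity)
      have h3 : z * y ^ 2 ≤ z * (1 / 256) := mul_le_mul_of_nonneg_left hy3 hz0.le
      nlinarith
    linarith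
  refine ⟨hτ1, ?_⟩
  obtain ⟨ε, hε, h2⟩ := Metric.eventually_nhds_iff.1 (hΦc.continuousAt.eventually_lt_const hΦ0)
  refine ⟨ε / 2, by positivity, fun η h3 h4 => ?_⟩
  have h5 : Φ η < tgt := by
    refine h2 ?_
    rw [Real.dist_eq, sub_zero, abs_of_nonneg h3]
    linarith
  refine (thT_le (kk := kk) (η := η) hv0 hqb0 hB0 hT0).trans (le_trans ?_ h5.le)
  have h6 : th0 kk v qb B T η = Real.exp η * ((z + tauT v B T) / (1 - tauT v B T)
      + (Real.exp η - 1)) := by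
    unfold th0
    rw [e1]
  have h7 : eps1 qb B η ≤ y ^ 2 * Real.exp (2 * η) := by
    unfold eps1
    rw [Real.exp_add, ← hy2]
    exact mul_le_mul_of_nonneg_right (Real.exp_le_exp.2 (neg_le_neg e5)) (Real.exp_pos _).le
  rw [h6]
  simp only [hΦ]
  linarith

/-- the parameters: `L = log λ`, slope bound `qb = (1+d) 2πa/L`; the gain is `λ^{-(π/a)(1-3d)}` for
charge `±1` and its fourth power for all other charges -/
theorem params {a d : ℝ} (ha : 0 < a) (hd : 0 < d) (hd4 : d ≤ 1 / 4) :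
    ∃ L0 : ℝ, 0 < L0 ∧ ∀ L, L0 ≤ L → ∃ v B T η0 : ℝ, 0 < v ∧ 0 < B ∧ 0 < T ∧ B * v ≤ T ∧
      tauT v B T < 1 ∧ 0 < η0 ∧ ∀ η, 0 ≤ η → η ≤ η0 →
        thT 1 v ((1 + d) * (2 * Real.pi * a / L)) B T η
          ≤ Real.exp (-((Real.pi / a) * (1 - 3 * d) * L)) ∧
        thT 4 v ((1 + d) * (2 * Real.pi * a / L)) B T η
          ≤ Real.exp (-(4 * (Real.pi / a) * (1 - 3 * d) * L)) := by
  have hpi := Real.pi_pos
  refine ⟨(a / Real.pi) * (4 / d), by positivity, fun L hL => ?_⟩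
  have hL0 : 0 < L := lt_of_lt_of_le (by positivity) hL
  have hx1 : 4 / d ≤ Real.pi * L / a := by
    rw [le_div_iff₀ ha]
    calc 4 / d * a = Real.pi * (a / Real.pi * (4 / d)) := by field_simp
      _ ≤ _ := mul_le_mul_of_nonneg_left hL hpi.le
  have hxd : 4 ≤ d * (Real.pi * L / a) := by
    have := mul_le_mul_of_nonneg_left hx1 hd.le
    rwa [mul_div_cancel₀ _ hd.ne'] at this
  have hx0 : 0 < Real.pi * L / a := by positivity
  have hx16 : 16 ≤ Real.pi * L / a := by nlinarith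
  have hv0 : 0 < L / (2 * Real.pi * a * d) := by positivity
  have hsd : 0 < Real.sqrt d := Real.sqrt_pos.2 hd
  have hB0 : 0 < 80 / Real.sqrt d := by positivity
  have hB2 : (80 / Real.sqrt d) ^ 2 = 6400 / d := by
    rw [div_pow, Real.sq_sqrt hd.le]
    norm_num
  have hT0 : 0 < 4 * (80 / Real.sqrt d) * (L / (2 * Real.pi * a * d)) := by positivity
  have hqb0 : 0 < (1 + d) * (2 * Real.pi * a / L) := by positivity
  have k2 : 8 * (Real.pi * L / a) ≤ (4 * (80 / Real.sqrt d) * (L / (2 * Real.pi * a * d))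
      - 80 / Real.sqrt d * (L / (2 * Real.pi * a * d))) ^ 2 / (2 * (L / (2 * Real.pi * a * d))) := by
    rw [ex2 hv0, hB2]
    exact ex6 ha hd hd4 hL0
  have k3 : 8 * (Real.pi * L / a) ≤ (4 * (80 / Real.sqrt d) * (L / (2 * Real.pi * a * d))) ^ 2
      / (2 * (L / (2 * Real.pi * a * d))) := by
    rw [ex3 hv0, hB2]
    refine (ex6 ha hd hd4 hL0).trans ?_
    refine mul_le_mul_of_nonneg_right ?_ hv0.le
    have : 0 < 6400 / d := by positivity
    linarith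
  have k4 := ex4 ha hd hd4 hL0 hB2
  have k5 := ex5 ha hd hd4 hL0 hB2
  have l1 : (2 : ℝ) * (1 * (Real.pi * L / a)) ≤ 8 * (Real.pi * L / a) := by linarith
  have l4 : (2 : ℝ) * (4 * (Real.pi * L / a)) ≤ 8 * (Real.pi * L / a) := by linarith
  obtain ⟨h1, η1, h2, h3⟩ := params_aux (kk := 1) (x := 1 * (Real.pi * L / a)) hv0 hqb0 hB0 hT0 hd
    (by linarith) (by linarith) (ex1 ha hd hL0 1) (l1.trans k2) (l1.trans k3) (l1.trans k4)
    (l1.trans k5) rfl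
  obtain ⟨_, η4, h5, h6⟩ := params_aux (kk := 4) (x := 4 * (Real.pi * L / a)) hv0 hqb0 hB0 hT0 hd
    (by linarith) (by nlinarith) (ex1 ha hd hL0 4) (l4.trans k2) (l4.trans k3) (l4.trans k4)
    (l4.trans k5) rfl
  refine ⟨_, _, _, min η1 η4, hv0, hB0, hT0, ?_, h1, lt_min h2 h5, fun η h7 h8 => ⟨?_, ?_⟩⟩
  · have : 0 ≤ 80 / Real.sqrt d * (L / (2 * Real.pi * a * d)) := by positivity
    linarith
  · refine (h3 η h7 (h8.trans (min_le_left _ _))).trans (le_of_eq ?_)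
    congr 1
    ring
  · refine (h6 η h7 (h8.trans (min_le_right _ _))).trans (le_of_eq ?_)
    congr 1
    ring

end Vale.Agent.P159.TM.H783
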